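import Vale.Agent.P180.Int.Defs
import Mathlib.GroupTheory.SpecificGroups.Alternating
import Mathlib.LinearAlgebra.Matrix.ProjectiveSpecialLinearGroup
import Mathlib.LinearAlgebra.SpecialLinearGroup

/-!
P180: the definitions in the statement of the theorem on named classes of finite groups.
-/

namespace Vale.Agent.N180.St

open Vale.Agent.P180 IsLocalRing Subgroup LinearMap

universe u

section Blocks

variable {R k : Type u} [CommRing R] [Field k] {G H : Type} [Group G] [Group H]

/-- The image of `b` in `kG`. -/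
noncomputable def img (f : R →+* k) (b : MonoidAlgebra R G) : MonoidAlgebra k G :=
  MonoidAlgebra.mapRingHom G f b

/-- `D` is a defect group of `b` or of the image of `b` in `kG`. -/
def Defect (f : R →+* k) (b : MonoidAlgebra R G) (D : Subgroup G) : Prop :=
  IsDefectGroupR b D ∨ IsDefectGroupR (img f b) D

/-- The block algebras `RGb` and `RHc` are Morita equivalent over `R`. -/
def Mor {b : MonoidAlgebra R G} {c : MonoidAlgebra R H} (hb : IsBlockR b) (hc : IsBlockR c) : Prop :=
  IsMoritaEquivalent R hb.Alg hc.Alg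

end Blocks

/-- `S R k f` holds for all algebraically closed fields `R = k` of characteristic `p` (`f` the
identity) and for all complete discrete valuation rings `R` with such a residue field `k` (`f` the
residue map). -/
def Both (p : ℕ) (S : ∀ (R k : Type u) [CommRing R] [Field k], (R →+* k) → Prop) : Prop :=
  (∀ (k : Type u) [Field k] [IsAlgClosed k] [CharP k p], S k k (RingHom.id k)) ∧
  ∀ (O : Type u) [CommRing O] [IsDomain O] [IsDiscreteValuationRing O]
    [IsAdicComplete (maximalIdeal O) O] [IsAlgClosed (ResidueField O)] [CharP (ResidueField O) p],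
    S O (ResidueField O) (residue O)

/-- There are finite groups `H 1, …, H r` and, for each `R` as in `Both`, blocks `c i` of `R[H i]`
such that each block `b` of `RG`, `G` a finite group, with a defect group `D`, `|D| ≤ n` and `(G, D)`
in the class `C`, is Morita equivalent over `R` to one of the `c i`, or to a block `b'` of a finite
group `G'` whose image in `kG'` has the property `E`. -/
def FinOr (p n : ℕ) (C : ∀ (G : Type) [Group G], Subgroup G → Prop)
    (E : ∀ (k : Type u) [Field k] (G G' : Type) [Group G] [Group G'],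
      Subgroup G → MonoidAlgebra k G' → Prop) : Prop :=
  ∃ (r : ℕ) (H : Fin r → Type) (_ : ∀ i, Group (H i)) (_ : ∀ i, Finite (H i)),
    Both.{u} p fun R k _ _ f => ∃ (c : ∀ i, MonoidAlgebra R (H i)) (hc : ∀ i, IsBlockR (c i)),
      ∀ (G : Type) [Group G] [Finite G] (b : MonoidAlgebra R G) (hb : IsBlockR b) (D : Subgroup G),
        Defect f b D → Nat.card D ≤ n → C G D → (∃ i, Mor hb (hc i)) ∨
          ∃ (G' : Type) (_ : Group G') (_ : Finite G') (b' : MonoidAlgebra R G')
            (hb' : IsBlockR b'), Mor hb hb' ∧ E k G G' D (img f b')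

/-- Donovan's conjecture, in both forms, for the pairs `(G, D)` in the class `C`, `|D| ≤ n`. -/
def Donovan (p n : ℕ) (C : ∀ (G : Type) [Group G], Subgroup G → Prop) : Prop :=
  FinOr.{u} p n C fun _ _ _ _ _ _ _ _ => False

section Forms

variable {K E : Type} [Field K] [AddCommGroup E] [Module K E]

/-- `B` is a nondegenerate form, linear in the first variable, `B y x = ε θ (B x y)`, `θ ^ 2 = 1`. -/
def IsForm (B : E → E → K) (θ : K →+* K) (ε : K) : Prop :=
  (∀ x y z, B (x + y) z = B x z + B y z) ∧ (∀ (a : K) x y, B (a • x) y = a * B x y) ∧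
  (∀ a, θ (θ a) = a) ∧ ε * θ ε = 1 ∧ (∀ x y, B y x = ε * θ (B x y)) ∧
  ∀ x, (∀ y, B x y = 0) → x = 0

/-- `g` is an isometry of `B`. -/
def Preserves (B : E → E → K) (g : GeneralLinearGroup K E) : Prop :=
  ∀ x y, B (g.val x) (g.val y) = B x y

/-- `g` has determinant one. -/
def DetOne (g : GeneralLinearGroup K E) : Prop := LinearMap.det g.val = 1

/-- `Y` consists of isometries of `B`, and if `g` and `h` are isometries of determinant one which
are not in `Y`, then `g h` is in `Y` (that is, `Y` contains a subgroup of index at most two in the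
group of the isometries of determinant one). -/
def Isometries (B : E → E → K) (Y : Subgroup (GeneralLinearGroup K E)) : Prop :=
  (∀ g ∈ Y, Preserves B g) ∧
  ∀ g h, Preserves B g → Preserves B h → DetOne g → DetOne h → g ∉ Y → h ∉ Y → g * h ∈ Y

/-- `Y` is the group of the isometries of `B` of determinant one. -/
def Special (B : E → E → K) (Y : Subgroup (GeneralLinearGroup K E)) : Prop :=
  ∀ g, g ∈ Y ↔ Preserves B g ∧ DetOne g

/-- `p` is a linear prime: `p` does not divide `r ^ j + 1` if `θ` is `c ↦ c ^ (r ^ j)`, `r` the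
characteristic of `K`. -/
def LinPrime (p : ℕ) (θ : K →+* K) : Prop :=
  ∀ j : ℕ, (∀ c, θ c = c ^ (ringChar K ^ j)) → ¬ p ∣ ringChar K ^ j + 1

/-- `Y` consists of elements of determinant one, and `L` is a quotient of `Y` such that the preimage
of the centre of `L` consists of scalars. -/
def ModScalars (Y : Subgroup (GeneralLinearGroup K E)) (L : Type) [Group L] : Prop :=
  (∀ g ∈ Y, DetOne g) ∧ ∃ π : Y →* L, Function.Surjective π ∧
    ∀ y : Y, π y ∈ center L → ∃ c : K, ∀ v, y.val.val v = c • v

end Forms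

section Types

variable (p m d : ℕ) (K E : Type) [Field K] [AddCommGroup E] [Module K E]

/-- `p` does not divide twice the order of the group of automorphisms of the field `K`. -/
def NoAut : Prop := ¬ p ∣ 2 * Nat.card (K ≃+* K)

/-- `D` is abelian, or `|D| < p ^ p` and `D` has exponent `p` or `NoAut` holds. -/
def Mild (D : Type) [Group D] : Prop :=
  (∀ x y : D, x * y = y * x) ∨ (Nat.card D < p ^ p ∧ ((∀ x : D, x ^ p = 1) ∨ NoAut p K))

/-- `p` does not divide `|K|`, and `X` is isomorphic to a group `Y` with `SL(E) ≤ Y ≤ GL(E)`, or `p`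
is a linear prime and `Y` is a group of isometries as in `Isometries` (of an alternating or hermitian
form if `|K|` is even). -/
def ClassicalOn (X : Type) [Group X] : Prop :=
  ¬ p ∣ Nat.card K ∧ ∃ Y : Subgroup (GeneralLinearGroup K E), Nonempty (X ≃* Y) ∧
    ((∀ g, DetOne g → g ∈ Y) ∨
      ∃ (B : E → E → K) (θ : K →+* K) (ε : K), IsForm B θ ε ∧ Isometries B Y ∧ LinPrime p θ ∧
        (Odd (Nat.card K) ∨ (∃ a, θ a ≠ a) ∨ ∀ x, B x x = 0))

/-- `T` is `PSL_d(K)`, and `d = 2`, or `p` divides `|K|`, or `D` is mild and `p` does not divide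
`gcd(d, |K| - 1)` (and `4` divides `|K| - 1` if `p = 2`), or `D` has class at most `p - 3`, `NoAut`
holds and `gcd(d, |K| - 1) ≤ m`. -/
def LinType (D T : Type) [Group D] [Group T] : Prop :=
  Nonempty (T ≃* Matrix.ProjectiveSpecialLinearGroup (Fin d) K) ∧
    (d = 2 ∨ p ∣ Nat.card K ∨
      (Mild p K D ∧ ¬ (p ∣ d ∧ p ∣ Nat.card K - 1) ∧ (p ≠ 2 ∨ 4 ∣ Nat.card K - 1)) ∨
      (Subgroup.upperCentralSeries D (p - 3) = ⊤ ∧ NoAut p K ∧ Nat.gcd d (Nat.card K - 1) ≤ m))

/-- `T` is a symplectic, unitary or orthogonal group modulo scalars, `d ≥ 3` the dimension of `E`: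
`p` divides `|K|`, and `|K|` is odd and `d ≠ 4` or `T` is `PSp_d` or `PSU_d`; or `p` is a linear
prime, `D` is mild and `T` is `PSp_d`, `d ≥ 4`, `|K| > 9`, or `PSU_d`, `|K| > 324`. -/
def FormType (D T : Type) [Group D] [Group T] : Prop :=
  3 ≤ d ∧ ∃ (B : E → E → K) (θ : K →+* K) (ε : K) (Y : Subgroup (GeneralLinearGroup K E)),
    IsForm B θ ε ∧ ModScalars Y T ∧
    ((p ∣ Nat.card K ∧ ((Odd (Nat.card K) ∧ d ≠ 4 ∧ Isometries B Y) ∨
        (Special B Y ∧ ((∀ x, B x x = 0) ∨ ∃ a, θ a ≠ a)))) ∨
      (LinPrime p θ ∧ Mild p K D ∧ Special B Y ∧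
        (((∀ x, B x x = 0) ∧ 4 ≤ d ∧ 9 < Nat.card K) ∨
          ((∃ a, θ a ≠ a) ∧ ε = 1 ∧ 324 < Nat.card K))))

/-- `L` is an orthogonal, symplectic or unitary group on `E` modulo scalars, `|K|` is odd and prime to
`p`, and `p` is a linear prime. -/
def OddFormOn (L : Type) [Group L] : Prop :=
  Odd (Nat.card K) ∧ ¬ p ∣ Nat.card K ∧
    ∃ (B : E → E → K) (θ : K →+* K) (ε : K) (Y : Subgroup (GeneralLinearGroup K E)),
      IsForm B θ ε ∧ Isometries B Y ∧ LinPrime p θ ∧ ModScalars Y L

/-- `L` is a quotient of `SL(E)`, `d ≥ 3` the dimension of `E`, `|K|` prime to `p`, by a central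
subgroup, which has order prime to `p` unless `gcd(d, |K| - 1) ≤ m`; `NoAut` holds, or `N_D(L)` acts
on `L` through `GL(E)`; and the preimage of `D ∩ L` in `SL(E)` is abelian or nilpotent of class at
most `p - 2`. -/
def LinCompOn {G : Type} [Group G] (D L : Subgroup G) : Prop :=
  3 ≤ d ∧ ¬ p ∣ Nat.card K ∧ ∃ π : SpecialLinearGroup K E →* L,
    Function.Surjective π ∧ π.ker ≤ center _ ∧
    (¬ p ∣ Nat.card π.ker ∨ Nat.gcd d (Nat.card K - 1) ≤ m) ∧
    (NoAut p K ∨ ∀ r ∈ D ⊓ normalizer (L : Set G), ∃ g : GeneralLinearGroup K E, ∀ s t,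
      SpecialLinearGroup.toGeneralLinearGroup t =
        g * SpecialLinearGroup.toGeneralLinearGroup s * g⁻¹ → (π t : G) = r * π s * r⁻¹) ∧
    Subgroup.upperCentralSeries ((D.subgroupOf L).comap π) (max 1 (p - 2)) = ⊤

end Types

/-- Each `p`-subgroup `Q = O_p(N_T(Q))` of `T` with `1 < |Q| ≤ n` contains its centraliser (true in
groups of Lie type in characteristic `p`). -/
def LocalChar (p n : ℕ) (T : Type) [Group T] : Prop :=
  ∀ Q : Subgroup T, Q ≠ ⊥ → IsPGroup p Q → Nat.card Q ≤ n →
    (∀ P : Subgroup T, IsPGroup p P → P ≤ normalizer (Q : Set T) →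
      (∀ g ∈ normalizer (Q : Set T), ∀ x ∈ P, g * x * g⁻¹ ∈ P) → P ≤ Q) →
    centralizer (Q : Set T) ≤ Q

/-- The named simple groups `T`, for the `p`-group `D`. -/
def Named (p n m : ℕ) (D T : Type) [Group D] [Group T] : Prop :=
  Nat.card T ≤ m ∨ (∃ d : ℕ, Nonempty (T ≃* alternatingGroup (Fin d))) ∨
  (LocalChar p n T ∧ (p = 2 ∨ ∀ P : Sylow p T, n < Nat.card P)) ∨
  ∃ (K : Type) (_ : Field K) (_ : Finite K) (d : ℕ),
    LinType p m d K D T ∨ FormType p d K (Fin d → K) D T

section Groups

variable {G : Type} [Group G]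

/-- `L` is perfect and `L / Z(L)` is simple. -/
def Quasisimple (L : Subgroup G) : Prop :=
  commutator L = ⊤ ∧ IsSimpleGroup (L ⧸ center L)

/-- `N_G(L) / L C_G(L)` is solvable. -/
def SolvableOut (L : Subgroup G) : Prop :=
  ∃ l : ℕ, (derivedSeries (normalizer (L : Set G)) l).map (normalizer (L : Set G)).subtype ≤
    L ⊔ centralizer (L : Set G)

/-- `T` is a section of `M / N`. -/
def SectionOf (T : Type) [Group T] (N M : Subgroup G) : Prop :=
  ∃ (S : Subgroup G) (f : S →* T), S ≤ M ∧ Function.Surjective f ∧ N.subgroupOf S ≤ f.ker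

/-- `D ∩ L` is central in `L`; or `L / Z(L)` is named for the group `P`; or `L` is a quotient of
`SL_d(K)` as in `LinCompOn`; or `N_D(L)` acts on `L` by inner automorphisms, `N_G(L) / L C_G(L)` is
solvable, and `D ∩ L` is cyclic, or `L` is as in `OddFormOn` in dimension `d ≥ 4` and `D ∩ L` is
abelian or of order less than `p ^ p`. -/
def Good (p n m : ℕ) (P : Type) [Group P] (D L : Subgroup G) : Prop :=
  D ⊓ L ≤ centralizer (L : Set G) ∨ Named p n m P (L ⧸ center L) ∨
  (∃ (K : Type) (_ : Field K) (_ : Finite K) (d : ℕ), LinCompOn p m d K (Fin d → K) D L) ∨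
  (D ⊓ normalizer (L : Set G) ≤ L ⊔ centralizer (L : Set G) ∧ SolvableOut L ∧
    (IsCyclic (D ⊓ L : Subgroup G) ∨
      ((∃ (K : Type) (_ : Field K) (_ : Finite K) (d : ℕ), 4 ≤ d ∧ OddFormOn p K (Fin d → K) L) ∧
        ((∀ x ∈ D ⊓ L, ∀ y ∈ D ⊓ L, x * y = y * x) ∨ Nat.card (D ⊓ L : Subgroup G) < p ^ p))))

/-- `G` has normal subgroups `N ≤ M` with `D ≤ M` such that `N` is generated by pairwise commuting
good quasisimple subgroups (any number, possibly none), and all simple sections of `M / N` of order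
divisible by `p` are cyclic or named. -/
def Layered (p n m : ℕ) (G : Type) [Group G] (D : Subgroup G) : Prop :=
  ∃ (N M : Subgroup G) (r : ℕ) (L : Fin r → Subgroup G), N.Normal ∧ M.Normal ∧ N ≤ M ∧ D ≤ M ∧
    N = ⨆ j, L j ∧ (∀ i j, i ≠ j → L i ≤ centralizer (L j : Set G)) ∧
    (∀ j, Quasisimple (L j) ∧ Good p n m D D (L j)) ∧
    ∀ (T : Type) [Group T] [IsSimpleGroup T], SectionOf T N M → p ∣ Nat.card T →
      Nat.card T = p ∨ Named p n m D T

/-- `G / X` is `p`-solvable: there is a normal series from `X` to `G` whose factors are `p`-groups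
or of order prime to `p`. -/
def PSolvableOver (p : ℕ) (X : Subgroup G) : Prop :=
  ∃ (l : ℕ) (N : ℕ → Subgroup G), N 0 = X ∧ N l = ⊤ ∧ (∀ i, (N i).Normal) ∧
    ∀ i < l, N i ≤ N (i + 1) ∧
      ((∃ j, (N i).relIndex (N (i + 1)) = p ^ j) ∨ ¬ p ∣ (N i).relIndex (N (i + 1)))

/-- `A` is cyclic; or `|G| ≤ m`; or `A` is abelian and `G` is as in `ClassicalOn`, in any dimension
over any finite field. -/
def Basic (p m : ℕ) (A : Subgroup G) : Prop :=
  IsCyclic A ∨ Nat.card G ≤ m ∨ ((∀ x ∈ A, ∀ y ∈ A, x * y = y * x) ∧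
    ∃ (K : Type) (_ : Field K) (_ : Finite K) (d : ℕ), ClassicalOn p K (Fin d → K) G)

/-- `π` is surjective and its kernel is central, of order prime to `p`. -/
def CentralQuot (p : ℕ) {Y : Type} [Group Y] (π : G →* Y) : Prop :=
  Function.Surjective π ∧ π.ker ≤ center G ∧ ¬ p ∣ Nat.card π.ker

end Groups

/-- The smallest class of pairs `(X, A)`, `A` a subgroup of the finite group `X`, which contains the
basic pairs and is closed under direct products and under quotients by central subgroups of order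
prime to `p`. -/
inductive Built (p m : ℕ) : ∀ (X : Type) [Group X], Subgroup X → Prop
  | basic (X : Type) [Group X] [Finite X] (A : Subgroup X) : Basic p m A → Built p m X A
  | prod (X Y : Type) [Group X] [Group Y] (A : Subgroup (X × Y)) :
      Built p m X (A.map (MonoidHom.fst X Y)) → Built p m Y (A.map (MonoidHom.snd X Y)) →
      Built p m (X × Y) A
  | quot (X Y : Type) [Group X] [Group Y] (π : X →* Y) (A : Subgroup X) :
      CentralQuot p π → Built p m X A → Built p m Y (A.map π)

/-- `D ≤ X`, `X` a normal subgroup of `G` with `G / X` `p`-solvable and `(X, D)` as in `Built`. -/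
def OverBuilt (p m : ℕ) (G : Type) [Group G] (D : Subgroup G) : Prop :=
  ∃ X : Subgroup G, D ≤ X ∧ PSolvableOver p X ∧ Built p m X (D.subgroupOf X)

/-- With `R = N_D(L)`: there are a block `f` of `kL` with `f b = b` and an idempotent `i` of `kLf`
which is centralised by `R`, is not in the kernel of the Brauer homomorphism `Br_R`, and has
`dim (i kL i) ≤ m`. -/
def SmallSource (m : ℕ) {k : Type u} [Field k] {G : Type} [Group G] (b : MonoidAlgebra k G)
    (D L : Subgroup G) : Prop :=
  ∃ (f i : MonoidAlgebra k L) (hi : IsIdempotentElem i), IsBlockR f ∧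
    MonoidAlgebra.mapDomainRingHom k L.subtype f * b = b ∧ f * i = i ∧
    (∀ r ∈ D ⊓ normalizer (L : Set G),
      Commute (MonoidAlgebra.single r 1) (MonoidAlgebra.mapDomainRingHom k L.subtype i)) ∧
    (∃ x : L, (∀ r ∈ D ⊓ normalizer (L : Set G), r * x = x * r) ∧ i.coeff x ≠ 0) ∧
    Module.finrank k hi.Corner ≤ m

/-- The block `b'` of `kG'` has a defect group `D'`, `|D'| ≤ |D|`, and `G'` has a component `L` which
is not good (named groups taken for `D`), with `L / Z(L)` a section of the normal closure of `D` in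
`G`, such that `N(L) / L C(L)` is not solvable or there is no small source for `L`. -/
def Critical (p n m : ℕ) (k : Type u) [Field k] (G G' : Type) [Group G] [Group G']
    (D : Subgroup G) (b' : MonoidAlgebra k G') : Prop :=
  ∃ D' L E : Subgroup G', IsDefectGroupR b' D' ∧ Nat.card D' ≤ Nat.card D ∧
    E.Normal ∧ L ≤ E ∧ E ≤ normalizer (L : Set G') ∧ Quasisimple L ∧ ¬ Good p n m D D' L ∧
    SectionOf (L ⧸ center L) ⊥ (normalClosure (D : Set G)) ∧
    (¬ SolvableOut L ∨ ¬ SmallSource m b' D' L)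

end Vale.Agent.N180.St
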