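import Vale.Agent.N180.Lay
import Vale.Agent.N180.Stmt

/-!
P180: from the definitions of the statement to the working definitions.
-/

set_option linter.all false

namespace Vale.Agent.N180

open Subgroup LinearMap

universe u

section Forms

variable {K E : Type} [Field K] [AddCommGroup E] [Module K E]

/-- the identification of the two general linear groups -/
noncomputable def eqv (K E : Type) [Field K] [AddCommGroup E] [Module K E] :
    GeneralLinearGroup K E ≃* (E ≃ₗ[K] E) := GeneralLinearGroup.generalLinearEquiv K E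

theorem eqv_symm_apply (g : E ≃ₗ[K] E) (v : E) : ((eqv K E).symm g).val v = g v := rfl

theorem eqv_apply (g : GeneralLinearGroup K E) (v : E) : (eqv K E g) v = g.val v := rfl

/-- the corresponding subgroup -/
noncomputable def old (Y : Subgroup (GeneralLinearGroup K E)) : Subgroup (E ≃ₗ[K] E) :=
  Y.comap (eqv K E).symm.toMonoidHom

theorem mem_old {Y : Subgroup (GeneralLinearGroup K E)} {g : E ≃ₗ[K] E} :
    g ∈ old Y ↔ (eqv K E).symm g ∈ Y := Iff.rfl

theorem detOne_iff (g : E ≃ₗ[K] E) : St.DetOne ((eqv K E).symm g) ↔ LinearEquiv.det g = 1 := by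
  rw [← Units.val_inj, LinearEquiv.coe_det, Units.val_one]
  rfl

/-- the map to `Y` -/
noncomputable def fromOld (Y : Subgroup (GeneralLinearGroup K E)) : old Y →* Y :=
  ((eqv K E).symm.toMonoidHom.comp (old Y).subtype).codRestrict Y fun x => x.2

theorem fromOld_bij (Y : Subgroup (GeneralLinearGroup K E)) : Function.Bijective (fromOld Y) := by
  constructor
  · intro x y h
    exact Subtype.ext ((eqv K E).symm.injective (congrArg Subtype.val h))
  · intro y
    refine ⟨⟨eqv K E y, ?_⟩, Subtype.ext ((eqv K E).symm_apply_apply y)⟩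
    rw [mem_old, MulEquiv.symm_apply_apply]
    exact y.2

theorem isometries_old {B : E → E → K} {Y : Subgroup (GeneralLinearGroup K E)}
    (h : St.Isometries B Y) : Isometries B (old Y) := by
  refine ⟨fun g hg => h.1 _ hg, fun g g' h1 h2 h3 h4 h5 h6 => ?_⟩
  rw [mem_old, map_mul]
  exact h.2 _ _ h1 h2 ((detOne_iff g).mpr h3) ((detOne_iff g').mpr h4) h5 h6

theorem special_old {B : E → E → K} {Y : Subgroup (GeneralLinearGroup K E)}
    (h : St.Special B Y) : Special B (old Y) := by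
  intro g
  rw [mem_old, h, detOne_iff]
  rfl

theorem modScalars_old {Y : Subgroup (GeneralLinearGroup K E)} {L : Type} [Group L]
    (h : St.ModScalars Y L) : ModScalars (old Y) L := by
  obtain ⟨h1, π, hπ, hc⟩ := h
  exact ⟨fun g hg => (detOne_iff g).mp (h1 _ hg), π.comp (fromOld Y),
    hπ.comp (fromOld_bij Y).2, fun y hy => hc (fromOld Y y) hy⟩

end Forms

variable {p n m : ℕ}

theorem named_old {D T : Type} [Group D] [Group T] (h : St.Named p n m D T) : Named p n m D T := by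
  rcases h with h | h | h | ⟨K, iK, fK, d, h | ⟨hd, B, θ, ε, Y, hB, hY, h⟩⟩
  · exact Or.inl h
  · exact Or.inr (Or.inl h)
  · exact Or.inr (Or.inr (Or.inl h))
  · exact Or.inr (Or.inr (Or.inr ⟨K, iK, fK, d, Or.inl h⟩))
  · refine Or.inr (Or.inr (Or.inr ⟨K, iK, fK, d, Or.inr ⟨hd, B, θ, ε, old Y, hB,
      modScalars_old hY, ?_⟩⟩))
    rcases h with ⟨h1, ⟨h2, h3, h4⟩ | ⟨h2, h3⟩⟩ | ⟨h1, h2, h3, h4⟩
    · exact Or.inl ⟨h1, Or.inl ⟨h2, h3, isometries_old h4⟩⟩
    · exact Or.inl ⟨h1, Or.inr ⟨special_old h2, h3⟩⟩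
    · exact Or.inr ⟨h1, h2, special_old h3, h4⟩

theorem good_old {G P : Type} [Group G] [Group P] {D L : Subgroup G} (h : St.Good p n m P D L) :
    Good p n m P D L := by
  rcases h with h | h | ⟨K, iK, fK, d, hd, hpK, π, h1, h2, h3, h4, h5⟩ | ⟨h1, h2, h3⟩
  · exact Or.inl h
  · exact Or.inr (Or.inl (named_old h))
  · refine Or.inr (Or.inr (Or.inl ⟨K, iK, fK, d, π, hd, hpK, h1, h2, h3,
      h4.imp_right fun h4 r hr => ?_, h5⟩))
    obtain ⟨g, hg⟩ := h4 r hr
    refine ⟨eqv K _ g, fun s t hst => hg s t ?_⟩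
    rw [eq_mul_inv_iff_mul_eq]
    exact Units.ext (LinearMap.ext hst)
  · refine Or.inr (Or.inr (Or.inr ⟨h1, h2, h3.imp_right ?_⟩))
    rintro ⟨⟨K, iK, fK, d, hd, ho, hpK, B, θ, ε, Y, g1, g2, g3, g4⟩, h4⟩
    exact ⟨⟨K, iK, fK, d, B, θ, ε, old Y, hd, ho, hpK, g1, isometries_old g2, g3,
      modScalars_old g4⟩, h4⟩

theorem layered_old [Fact p.Prime] {G : Type} [Group G] {D : Subgroup G}
    (h : St.Layered p n m G D) : Layered p n m G D := by
  obtain ⟨N, M, r, L, h1, h2, h3, h4, h5, h6, h7, h8⟩ := h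
  refine ⟨N, M, r, L, h1, h2, h3, h4, h5, h6, fun j => ⟨(h7 j).1, good_old (h7 j).2⟩, ?_⟩
  intro S T _ _ f g1 g2 g3 g4 g5
  rcases h8 T ⟨S, f, g1, g2, fun x hx => g3 x hx⟩ g5 with h | h
  · exfalso
    have hc : IsCyclic T := isCyclic_of_prime_card h
    exact g4 fun a b => hc.isMulCommutative.is_comm.comm a b
  · exact named_old h

theorem built_old {X : Type} [Group X] {A : Subgroup X} (h : St.Built p m X A) :
    Built p m X A := by
  induction h with
  | basic X A hA =>
    rcases hA with hA | hA | ⟨hA, K, iK, fK, d, hpK, Y, ⟨e⟩, hY⟩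
    · exact Built.cyclic X A hA
    · exact Built.small X A hA
    · let π : old Y →* X := e.symm.toMonoidHom.comp (fromOld Y)
      have hπ : Function.Bijective π := e.symm.bijective.comp (fromOld_bij Y)
      have hk : π.ker = ⊥ := (MonoidHom.ker_eq_bot_iff π).mpr hπ.1
      have h1 : Built p m (old Y) (A.comap π) := by
        refine Built.classical K (Fin d → K) (old Y) _ ⟨hpK, ?_⟩ fun x hx y hy => hπ.1 ?_
        · rcases hY with hY | ⟨B, θ, ε, g1, g2, g3, g4⟩
          · exact Or.inl fun g hg => hY _ ((detOne_iff g).mpr hg)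
          · exact Or.inr ⟨B, θ, ε, g1, isometries_old g2, g3, g4⟩
        · rw [map_mul, map_mul]
          exact hA _ hx _ hy
      have h2 := Built.quot (old Y) X π _ hπ.2 (by rw [hk]; exact bot_le) (by
        rw [hk, Subgroup.card_bot]
        intro h3
        exact hpK ((Nat.dvd_one.mp h3) ▸ one_dvd _)) h1
      rwa [Subgroup.map_comap_eq_self_of_surjective hπ.2] at h2
  | prod X Y A _ _ ih1 ih2 => exact Built.prod X Y A ih1 ih2
  | quot X Y π A hπ _ ih => exact Built.quot X Y π A hπ.1 hπ.2.1 hπ.2.2 ih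

theorem critical_new {k : Type u} [Field k] {G G' : Type} [Group G] [Group G'] {D : Subgroup G}
    {b' : MonoidAlgebra k G'} (h : Critical p n m k G G' D b') : St.Critical p n m k G G' D b' := by
  obtain ⟨D', L, E, h1, h2, h3, h4, h5, h6, h7, ⟨S, f, h8, h9⟩, h10⟩ := h
  refine ⟨D', L, E, h1, h2, h3, h4, h5, h6, fun h => h7 (good_old h), ⟨S, f, h8, h9, ?_⟩, h10⟩
  rw [Subgroup.bot_subgroupOf]
  exact bot_le

theorem finOr_new {C C' : ∀ (G : Type) [Group G], Subgroup G → Prop}
    {E E' : ∀ (k : Type u) [Field k] (G G' : Type) [Group G] [Group G'],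
      Subgroup G → MonoidAlgebra k G' → Prop}
    (hC : ∀ (G : Type) [Group G] (D : Subgroup G), C' G D → C G D)
    (hE : ∀ (k : Type u) [Field k] (G G' : Type) [Group G] [Group G'] (D : Subgroup G)
      (b : MonoidAlgebra k G'), E k G G' D b → E' k G G' D b) (h : FinOr.{u} p n C E) :
    St.FinOr.{u} p n C' E' := by
  obtain ⟨r, H, iG, iF, h1, h2⟩ := h
  refine ⟨r, H, iG, iF, ?_, ?_⟩
  · intro k _ _ _
    obtain ⟨c, hc, h⟩ := h1 k
    refine ⟨c, hc, ?_⟩
    intro G _ _ b hb D hD hn hs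
    rcases h G b hb D hD hn (hC G D hs) with h | ⟨G', iG', fG', b', hb', hM, hX⟩
    · exact Or.inl h
    · exact Or.inr ⟨G', iG', fG', b', hb', hM, hE _ _ _ _ _ hX⟩
  · intro O _ _ _ _ _ _
    obtain ⟨c, hc, h⟩ := h2 O
    refine ⟨c, hc, ?_⟩
    intro G _ _ b hb D hD hn hs
    rcases h G b hb D hD hn (hC G D hs) with h | ⟨G', iG', fG', b', hb', hM, hX⟩
    · exact Or.inl h
    · exact Or.inr ⟨G', iG', fG', b', hb', hM, hE _ _ _ _ _ hX⟩

theorem main (p : ℕ) [Fact p.Prime] (n m : ℕ) :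
    St.Donovan.{u} p n (St.Layered p n m) ∧ St.Donovan.{u} p n (St.OverBuilt p m) ∧
      St.FinOr.{u} p n (fun _ _ _ => True) (St.Critical p n m) :=
  ⟨finOr_new (fun _ _ _ => layered_old) (fun _ _ _ _ _ _ _ _ h => h) (donovan_layered p n m),
    finOr_new (fun _ _ _ ⟨X, h1, h2, h3⟩ => ⟨X, h1, h2, built_old h3⟩)
      (fun _ _ _ _ _ _ _ _ h => h) (donovan_built p n m),
    finOr_new (fun _ _ _ h => h) (fun _ _ _ _ _ _ _ _ => critical_new) (reduction p n m)⟩

end Vale.Agent.N180
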