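import Vale.Agent.P180.Int.Defs
import Mathlib.GroupTheory.SpecificGroups.Alternating
import Mathlib.LinearAlgebra.Matrix.ProjectiveSpecialLinearGroup
import Mathlib.LinearAlgebra.SpecialLinearGroup

/-!
P180: definitions for the theorem on named classes of finite groups.
-/

namespace Vale.Agent.N180

open Vale.Agent.P180 IsLocalRing Subgroup

universe u

/-- `S R k f` holds for all algebraically closed fields `R = k` of characteristic `p` (`f` the
identity) and for all complete discrete valuation rings `R` with such a residue field `k` (`f` the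
residue map). -/
def Both (p : ℕ) (S : ∀ (R k : Type u) [CommRing R] [Field k], (R →+* k) → Prop) : Prop :=
  (∀ (k : Type u) [Field k] [IsAlgClosed k] [CharP k p], S k k (RingHom.id k)) ∧
  ∀ (O : Type u) [CommRing O] [IsDomain O] [IsDiscreteValuationRing O]
    [IsAdicComplete (maximalIdeal O) O] [IsAlgClosed (ResidueField O)] [CharP (ResidueField O) p],
    S O (ResidueField O) (residue O)

/-- There are finite groups `H 1, …, H r` and, for each `R` as in `Both`, blocks `c i` of `R[H i]`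
such that each block `b` of `RG`, `G` a finite group, with a defect group `D` (of `b` or of the image
of `b` in `kG`), `|D| ≤ n` and `(G, D)` in the class `C`, is Morita equivalent over `R` to one of the
`c i`, or to a block `b'` of a finite group `G'` whose image in `kG'` has the property `E`. -/
def FinOr (p n : ℕ) (C : ∀ (G : Type) [Group G], Subgroup G → Prop)
    (E : ∀ (k : Type u) [Field k] (G G' : Type) [Group G] [Group G'],
      Subgroup G → MonoidAlgebra k G' → Prop) : Prop :=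
  ∃ (r : ℕ) (H : Fin r → Type) (_ : ∀ i, Group (H i)) (_ : ∀ i, Finite (H i)),
    Both.{u} p fun R k _ _ f => ∃ (c : ∀ i, MonoidAlgebra R (H i)) (hc : ∀ i, IsBlockR (c i)),
      ∀ (G : Type) [Group G] [Finite G] (b : MonoidAlgebra R G) (hb : IsBlockR b) (D : Subgroup G),
        (IsDefectGroupR b D ∨ IsDefectGroupR (MonoidAlgebra.mapRingHom G f b) D) →
        Nat.card D ≤ n → C G D → (∃ i, IsMoritaEquivalent R hb.Alg (hc i).Alg) ∨
          ∃ (G' : Type) (_ : Group G') (_ : Finite G') (b' : MonoidAlgebra R G')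
            (hb' : IsBlockR b'), IsMoritaEquivalent R hb.Alg hb'.Alg ∧
              E k G G' D (MonoidAlgebra.mapRingHom G' f b')

/-- Donovan's conjecture, in both forms, for the pairs `(G, D)` in the class `C`, `|D| ≤ n`. -/
def Donovan (p n : ℕ) (C : ∀ (G : Type) [Group G], Subgroup G → Prop) : Prop :=
  FinOr.{u} p n C fun _ _ _ _ _ _ _ _ => False

section Forms

variable {K E : Type} [Field K] [AddCommGroup E] [Module K E]

/-- `B` is a nondegenerate form, linear in the first variable, `B y x = ε θ (B x y)`, `θ ^ 2 = 1`. -/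
def IsForm (B : E → E → K) (θ : K →+* K) (ε : K) : Prop :=
  (∀ x y z, B (x + y) z = B x z + B y z) ∧ (∀ (a : K) x y, B (a • x) y = a * B x y) ∧
  (∀ a, θ (θ a) = a) ∧ ε * θ ε = 1 ∧ (∀ x y, B y x = ε * θ (B x y)) ∧
  ∀ x, (∀ y, B x y = 0) → x = 0

/-- `Y` consists of isometries of `B`, and if `g` and `h` are isometries of determinant one which
are not in `Y`, then `g h` is in `Y` (that is, `Y` contains a subgroup of index at most two in the
group of the isometries of determinant one). -/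
def Isometries (B : E → E → K) (Y : Subgroup (E ≃ₗ[K] E)) : Prop :=
  (∀ g ∈ Y, ∀ x y, B (g x) (g y) = B x y) ∧
  ∀ g h : E ≃ₗ[K] E, (∀ x y, B (g x) (g y) = B x y) → (∀ x y, B (h x) (h y) = B x y) →
    LinearEquiv.det g = 1 → LinearEquiv.det h = 1 → g ∉ Y → h ∉ Y → g * h ∈ Y

/-- `Y` is the group of the isometries of `B` of determinant one. -/
def Special (B : E → E → K) (Y : Subgroup (E ≃ₗ[K] E)) : Prop :=
  ∀ g, g ∈ Y ↔ (∀ x y, B (g x) (g y) = B x y) ∧ LinearEquiv.det g = 1

/-- `p` is a linear prime: `p` does not divide `r ^ j + 1` if `θ` is `c ↦ c ^ (r ^ j)`, `r` the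
characteristic of `K`. -/
def LinPrime (p : ℕ) (θ : K →+* K) : Prop :=
  ∀ j : ℕ, (∀ c, θ c = c ^ (ringChar K ^ j)) → ¬ p ∣ ringChar K ^ j + 1

/-- `Y` consists of elements of determinant one, and `L` is a quotient of `Y` such that the preimage
of the centre of `L` consists of scalars. -/
def ModScalars (Y : Subgroup (E ≃ₗ[K] E)) (L : Type) [Group L] : Prop :=
  (∀ g ∈ Y, LinearEquiv.det g = 1) ∧ ∃ π : Y →* L, Function.Surjective π ∧
    ∀ y : Y, π y ∈ center L → ∃ c : K, ∀ v, (y : E ≃ₗ[K] E) v = c • v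

/-- `p` does not divide `|K|`, and `SL(E) ≤ Y ≤ GL(E)`, or `p` is a linear prime and `Y` is a group
of isometries as in `Isometries` (of an alternating or hermitian form if `|K|` is even). -/
def Classical (p : ℕ) (Y : Subgroup (E ≃ₗ[K] E)) : Prop :=
  ¬ p ∣ Nat.card K ∧ ((∀ g, LinearEquiv.det g = 1 → g ∈ Y) ∨
    ∃ (B : E → E → K) (θ : K →+* K) (ε : K), IsForm B θ ε ∧ Isometries B Y ∧ LinPrime p θ ∧
      (Odd (Nat.card K) ∨ (∃ a, θ a ≠ a) ∨ ∀ x, B x x = 0))

end Forms

/-- `D` is abelian, or `|D| < p ^ p` and `D` has exponent `p` or `p` does not divide `2 |Aut K|`. -/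
def Mild (p : ℕ) (K : Type) [Field K] (D : Type) [Group D] : Prop :=
  (∀ x y : D, x * y = y * x) ∨
    (Nat.card D < p ^ p ∧ ((∀ x : D, x ^ p = 1) ∨ ¬ p ∣ 2 * Nat.card (K ≃+* K)))

/-- `T` is a symplectic, unitary or orthogonal group modulo scalars, `d` the dimension of `E`:
`p` divides `|K|`, and `|K|` is odd and `d ≠ 4` or `T` is `PSp_d` or `PSU_d`; or `p` is a linear
prime, `D` is mild and `T` is `PSp_d`, `d ≥ 4`, `|K| > 9`, or `PSU_d`, `|K| > 324`. -/
def FormType (p d : ℕ) (K E : Type) [Field K] [AddCommGroup E] [Module K E] (D T : Type) [Group D]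
    [Group T] : Prop :=
  ∃ (B : E → E → K) (θ : K →+* K) (ε : K) (Y : Subgroup (E ≃ₗ[K] E)),
    IsForm B θ ε ∧ ModScalars Y T ∧
    ((p ∣ Nat.card K ∧ ((Odd (Nat.card K) ∧ d ≠ 4 ∧ Isometries B Y) ∨
        (Special B Y ∧ ((∀ x, B x x = 0) ∨ ∃ a, θ a ≠ a)))) ∨
      (LinPrime p θ ∧ Mild p K D ∧ Special B Y ∧
        (((∀ x, B x x = 0) ∧ 4 ≤ d ∧ 9 < Nat.card K) ∨
          ((∃ a, θ a ≠ a) ∧ ε = 1 ∧ 324 < Nat.card K))))

/-- Each `p`-subgroup `Q = O_p(N_T(Q))` of `T` with `1 < |Q| ≤ n` contains its centraliser (true in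
groups of Lie type in characteristic `p`). -/
def LocalChar (p n : ℕ) (T : Type) [Group T] : Prop :=
  ∀ Q : Subgroup T, Q ≠ ⊥ → IsPGroup p Q → Nat.card Q ≤ n →
    (∀ P : Subgroup T, IsPGroup p P → P ≤ normalizer (Q : Set T) →
      (∀ g ∈ normalizer (Q : Set T), ∀ x ∈ P, g * x * g⁻¹ ∈ P) → P ≤ Q) →
    centralizer (Q : Set T) ≤ Q

/-- The named simple groups `T`, for the `p`-group `D`. -/
def Named (p n m : ℕ) (D T : Type) [Group D] [Group T] : Prop :=
  Nat.card T ≤ m ∨ (∃ d : ℕ, Nonempty (T ≃* alternatingGroup (Fin d))) ∨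
  (LocalChar p n T ∧ (p = 2 ∨ ∀ P : Sylow p T, n < Nat.card P)) ∨
  ∃ (K : Type) (_ : Field K) (_ : Finite K) (d : ℕ),
    (Nonempty (T ≃* Matrix.ProjectiveSpecialLinearGroup (Fin d) K) ∧
      (d = 2 ∨ p ∣ Nat.card K ∨
        (Mild p K D ∧ ¬ (p ∣ d ∧ p ∣ Nat.card K - 1) ∧ (p ≠ 2 ∨ 4 ∣ Nat.card K - 1)) ∨
        (Subgroup.upperCentralSeries D (p - 3) = ⊤ ∧ ¬ p ∣ 2 * Nat.card (K ≃+* K) ∧
          Nat.gcd d (Nat.card K - 1) ≤ m))) ∨
    (3 ≤ d ∧ FormType p d K (Fin d → K) D T)

/-- `L` is an orthogonal (or symplectic or unitary) group of dimension `d ≥ 4` over a field of odd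
order prime to `p`, modulo scalars, and `p` is a linear prime. -/
def OddForm (p : ℕ) (L : Type) [Group L] : Prop :=
  ∃ (K : Type) (_ : Field K) (_ : Finite K) (d : ℕ) (B : (Fin d → K) → (Fin d → K) → K)
    (θ : K →+* K) (ε : K) (Y : Subgroup ((Fin d → K) ≃ₗ[K] (Fin d → K))),
    4 ≤ d ∧ Odd (Nat.card K) ∧ ¬ p ∣ Nat.card K ∧ IsForm B θ ε ∧ Isometries B Y ∧
      LinPrime p θ ∧ ModScalars Y L

section Groups

variable {G : Type} [Group G]

/-- `L` is perfect and `L / Z(L)` is simple. -/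
def Quasisimple (L : Subgroup G) : Prop :=
  commutator L = ⊤ ∧ IsSimpleGroup (L ⧸ center L)

/-- `N_G(L) / L C_G(L)` is solvable. -/
def SolvableOut (L : Subgroup G) : Prop :=
  ∃ l : ℕ, (derivedSeries (normalizer (L : Set G)) l).map (normalizer (L : Set G)).subtype ≤
    L ⊔ centralizer (L : Set G)

/-- `L` is a quotient of `SL_d(K)`, `d ≥ 3`, `|K|` prime to `p`, by a central subgroup, which has
order prime to `p` unless `gcd(d, |K| - 1) ≤ m`; `p` does not divide `2 |Aut K|`, or `N_D(L)` acts on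
`L` through `GL_d(K)`; and the preimage of `D ∩ L` in `SL_d(K)` is abelian or nilpotent of class at
most `p - 2`. -/
def LinComp (p m : ℕ) (D L : Subgroup G) : Prop :=
  ∃ (K : Type) (_ : Field K) (_ : Finite K) (d : ℕ) (π : SpecialLinearGroup K (Fin d → K) →* L),
    3 ≤ d ∧ ¬ p ∣ Nat.card K ∧ Function.Surjective π ∧ π.ker ≤ center _ ∧
    (¬ p ∣ Nat.card π.ker ∨ Nat.gcd d (Nat.card K - 1) ≤ m) ∧
    (¬ p ∣ 2 * Nat.card (K ≃+* K) ∨ ∀ r ∈ D ⊓ normalizer (L : Set G),
      ∃ g : (Fin d → K) ≃ₗ[K] (Fin d → K), ∀ s t : SpecialLinearGroup K (Fin d → K),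
        (∀ v, t (g v) = g (s v)) → (π t : G) = r * π s * r⁻¹) ∧
    Subgroup.upperCentralSeries ((D.subgroupOf L).comap π) (max 1 (p - 2)) = ⊤

/-- `D ∩ L` is central in `L`; or `L / Z(L)` is named for the group `P`; or `LinComp`; or `N_D(L)`
acts on `L` by inner automorphisms, `N_G(L) / L C_G(L)` is solvable, and `D ∩ L` is cyclic, or `L` is
as in `OddForm` and `D ∩ L` is abelian or of order less than `p ^ p`. -/
def Good (p n m : ℕ) (P : Type) [Group P] (D L : Subgroup G) : Prop :=
  D ⊓ L ≤ centralizer (L : Set G) ∨ Named p n m P (L ⧸ center L) ∨ LinComp p m D L ∨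
  (D ⊓ normalizer (L : Set G) ≤ L ⊔ centralizer (L : Set G) ∧ SolvableOut L ∧
    (IsCyclic (D ⊓ L : Subgroup G) ∨ (OddForm p L ∧
      ((∀ x ∈ D ⊓ L, ∀ y ∈ D ⊓ L, x * y = y * x) ∨ Nat.card (D ⊓ L : Subgroup G) < p ^ p))))

/-- `G` has normal subgroups `N ≤ M` with `D ≤ M` such that `N` is generated by pairwise commuting
good quasisimple subgroups (any number, possibly none), and all nonabelian simple sections of
`M / N` of order divisible by `p` are named. -/
def Layered (p n m : ℕ) (G : Type) [Group G] (D : Subgroup G) : Prop :=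
  ∃ (N M : Subgroup G) (r : ℕ) (L : Fin r → Subgroup G), N.Normal ∧ M.Normal ∧ N ≤ M ∧ D ≤ M ∧
    N = ⨆ j, L j ∧ (∀ i j, i ≠ j → L i ≤ centralizer (L j : Set G)) ∧
    (∀ j, Quasisimple (L j) ∧ Good p n m D D (L j)) ∧
    ∀ (S : Subgroup G) (T : Type) [Group T] [IsSimpleGroup T] (f : S →* T), S ≤ M →
      Function.Surjective f → (∀ x : S, (x : G) ∈ N → f x = 1) → (¬ ∀ a b : T, a * b = b * a) →
      p ∣ Nat.card T → Named p n m D T

/-- `G / X` is `p`-solvable: there is a normal series from `X` to `G` whose factors are `p`-groups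
or of order prime to `p`. -/
def PSolvableOver (p : ℕ) (X : Subgroup G) : Prop :=
  ∃ (l : ℕ) (N : ℕ → Subgroup G), N 0 = X ∧ N l = ⊤ ∧ (∀ i, (N i).Normal) ∧
    ∀ i < l, N i ≤ N (i + 1) ∧
      ((∃ j, (N i).relIndex (N (i + 1)) = p ^ j) ∨ ¬ p ∣ (N i).relIndex (N (i + 1)))

end Groups

/-- The smallest class of pairs `(X, A)`, `A` a subgroup of the finite group `X`, which contains the
pairs with `|X| ≤ m`, with `A` cyclic, and with `X` classical and `A` abelian, and which is closed
under direct products and under quotients by central subgroups of order prime to `p`. -/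
inductive Built (p m : ℕ) : ∀ (X : Type) [Group X], Subgroup X → Prop
  | small (X : Type) [Group X] [Finite X] (A : Subgroup X) : Nat.card X ≤ m → Built p m X A
  | cyclic (X : Type) [Group X] [Finite X] (A : Subgroup X) : IsCyclic A → Built p m X A
  | classical (K E : Type) [Field K] [Finite K] [AddCommGroup E] [Module K E] [Finite E]
      (Y : Subgroup (E ≃ₗ[K] E)) (A : Subgroup Y) : Classical p Y →
      (∀ x ∈ A, ∀ y ∈ A, x * y = y * x) → Built p m Y A
  | prod (X Y : Type) [Group X] [Group Y] (A : Subgroup (X × Y)) :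
      Built p m X (A.map (MonoidHom.fst X Y)) → Built p m Y (A.map (MonoidHom.snd X Y)) →
      Built p m (X × Y) A
  | quot (X Y : Type) [Group X] [Group Y] (π : X →* Y) (A : Subgroup X) :
      Function.Surjective π → π.ker ≤ center X → ¬ p ∣ Nat.card π.ker → Built p m X A →
      Built p m Y (A.map π)

/-- `D ≤ X`, `X` a normal subgroup of `G` with `G / X` `p`-solvable and `(X, D)` as in `Built`. -/
def OverBuilt (p m : ℕ) (G : Type) [Group G] (D : Subgroup G) : Prop :=
  ∃ X : Subgroup G, D ≤ X ∧ PSolvableOver p X ∧ Built p m X (D.subgroupOf X)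

/-- With `R = N_D(L)`: there are a block `f` of `kL` with `f b = b` and an idempotent `i` of `kLf`
which is centralised by `R`, is not in the kernel of the Brauer homomorphism `Br_R`, and has
`dim (i kL i) ≤ m`. -/
def SmallSource (m : ℕ) {k : Type u} [Field k] {G : Type} [Group G] (b : MonoidAlgebra k G)
    (D L : Subgroup G) : Prop :=
  ∃ (f i : MonoidAlgebra k L) (hi : IsIdempotentElem i), IsBlockR f ∧
    MonoidAlgebra.mapDomainRingHom k L.subtype f * b = b ∧ f * i = i ∧
    (∀ r ∈ D ⊓ normalizer (L : Set G),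
      Commute (MonoidAlgebra.single r 1) (MonoidAlgebra.mapDomainRingHom k L.subtype i)) ∧
    (∃ x : L, (∀ r ∈ D ⊓ normalizer (L : Set G), r * x = x * r) ∧ i.coeff x ≠ 0) ∧
    Module.finrank k hi.Corner ≤ m

/-- The block `b'` of `kG'` has a defect group `D'`, `|D'| ≤ |D|`, and `G'` has a component `L` which
is not good (named groups taken for `D`), with `L / Z(L)` a section of the normal closure of `D` in
`G`, such that `N(L) / L C(L)` is not solvable or there is no small source for `L`. -/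
def Critical (p n m : ℕ) (k : Type u) [Field k] (G G' : Type) [Group G] [Group G']
    (D : Subgroup G) (b' : MonoidAlgebra k G') : Prop :=
  ∃ D' L E : Subgroup G', IsDefectGroupR b' D' ∧ Nat.card D' ≤ Nat.card D ∧
    E.Normal ∧ L ≤ E ∧ E ≤ normalizer (L : Set G') ∧ Quasisimple L ∧ ¬ Good p n m D D' L ∧
    (∃ (S : Subgroup G) (f : S →* L ⧸ center L), S ≤ normalClosure (D : Set G) ∧
      Function.Surjective f) ∧
    (¬ SolvableOut L ∨ ¬ SmallSource m b' D' L)

end Vale.Agent.N180
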