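import Vale.Agent.N180.One

/-!
P180: the named classes in terms of the classes of the reduction theorems.
-/

set_option linter.all false

namespace Vale.Agent.N180

open IsLocalRing Subgroup
open Vale.Agent.P180 Vale.Agent.P180.H392 Vale.Agent.P180.R2 Vale.Agent.P180.R2.H47
  Vale.Agent.P180.H768.Gd Vale.Agent.P180.R2.H365
open Vale.Agent.P180.R2.H854 (HForm)

universe u

section Sec

variable {D P T : Type} [Group D] [Group P] [Group T]

/-- `P` is a section of `D` -/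
def Sec (D P : Type) [Group D] [Group P] : Prop :=
  ∃ (Q : Subgroup D) (f : Q →* P), Function.Surjective f

theorem sec_refl (D : Type) [Group D] : Sec D D :=
  ⟨⊤, (⊤ : Subgroup D).subtype, fun x => ⟨⟨x, trivial⟩, rfl⟩⟩

theorem isSec_trans (h : Sec D P) {A : Subgroup T} (hA : IsSec P A) : IsSec D A := by
  obtain ⟨Q, f, hf⟩ := h
  obtain ⟨R, g, hg⟩ := hA
  let e : (R.comap f).map Q.subtype ≃* R.comap f :=
    ((R.comap f).equivMapOfInjective Q.subtype Q.subtype_injective).symm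
  let f' : R.comap f →* R := (f.comp (R.comap f).subtype).codRestrict R fun x => x.2
  refine ⟨(R.comap f).map Q.subtype, g.comp (f'.comp e.toMonoidHom), ?_⟩
  rw [← hg]
  ext t
  constructor
  · rintro ⟨x, rfl⟩
    exact ⟨_, rfl⟩
  · rintro ⟨r, rfl⟩
    obtain ⟨q, hq⟩ := hf r
    have hq' : q ∈ R.comap f := by
      rw [Subgroup.mem_comap, hq]
      exact r.2
    refine ⟨e.symm ⟨q, hq'⟩, ?_⟩
    change g (f' (e (e.symm ⟨q, hq'⟩))) = g r
    rw [e.apply_symm_apply]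
    congr 1
    exact Subtype.ext hq

theorem sec_card [Finite D] {A : Subgroup T} (h : IsSec D A) : Nat.card A ≤ Nat.card D := by
  obtain ⟨Q, f, rfl⟩ := h
  exact (Nat.card_le_card_of_surjective _ f.rangeRestrict_surjective).trans
    (Nat.card_le_card_of_injective _ Q.subtype_injective)

theorem sec_exp {p : ℕ} {A : Subgroup T} (h : IsSec D A) (he : ∀ x : D, x ^ p = 1) :
    ∀ x ∈ A, x ^ p = 1 := by
  obtain ⟨Q, f, rfl⟩ := h
  rintro _ ⟨x, rfl⟩
  rw [← map_pow, show x ^ p = 1 from Subtype.ext (he x), map_one]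

theorem eng_of_mem (x : D) (r : ℕ) : ∀ y ∈ Subgroup.upperCentralSeries D r,
    (H574.cm x)^[r] y = 1 := by
  induction r with
  | zero =>
    intro y hy
    rw [Subgroup.upperCentralSeries_zero, Subgroup.mem_bot] at hy
    exact hy
  | succ r ih =>
    intro y hy
    rw [Function.iterate_succ_apply]
    apply ih
    have h1 := Subgroup.inv_mem _ (Subgroup.mem_upperCentralSeries_succ_iff.mp hy x)
    rw [commutatorElement_inv, commutatorElement_def] at h1
    exact h1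

theorem sec_eng {r : ℕ} {A : Subgroup T} (h : IsSec D A)
    (hc : Subgroup.upperCentralSeries D r = ⊤) : EngG r A := by
  obtain ⟨Q, f, rfl⟩ := h
  rintro _ ⟨x, rfl⟩ _ ⟨y, rfl⟩
  have h1 : (H574.cm (x : D))^[r] (y : D) = 1 := eng_of_mem _ r _ (by rw [hc]; trivial)
  have h2 : (H574.cm x)^[r] y = 1 := by
    apply Q.subtype_injective
    rw [H574.cm_map, map_one]
    exact h1
  have h3 := H574.cm_map f x y r
  rw [h2, map_one] at h3
  exact h3.symm

theorem mild_sec [Finite D] {p : ℕ} {K : Type} [Field K] (hs : Sec D P) (h : Mild p K D) :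
    AbS p P T ∨ ((¬ p ∣ 2 * Nat.card (K ≃+* K) ∨ ExpS p P T) ∧
      ((∀ A : Subgroup T, IsSec P A → ∀ x ∈ A, ∀ y ∈ A, x * y = y * x) ∨ SmallS p P T)) := by
  rcases h with h | ⟨h1, h2⟩
  · left
    left
    obtain ⟨Q, f, hf⟩ := hs
    intro x y
    obtain ⟨x, rfl⟩ := hf x
    obtain ⟨y, rfl⟩ := hf y
    rw [← map_mul, ← map_mul, show x * y = y * x from Subtype.ext (h x y)]
  · refine Or.inr ⟨?_, Or.inr fun A hA => (sec_card (isSec_trans hs hA)).trans_lt h1⟩
    rcases h2 with h2 | h2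
    · exact Or.inr fun A hA => sec_exp (isSec_trans hs hA) h2
    · exact Or.inl h2

end Sec

section Forms

variable {K E : Type} [Field K] [AddCommGroup E] [Module K E]

/-- the subgroup of the special linear group -/
noncomputable def toSL (Y : Subgroup (E ≃ₗ[K] E)) : Subgroup (SpecialLinearGroup K E) :=
  Y.comap SpecialLinearGroup.toLinearEquiv

/-- the map to `Y` -/
noncomputable def fromSL (Y : Subgroup (E ≃ₗ[K] E)) : toSL Y →* Y :=
  (SpecialLinearGroup.toLinearEquiv.comp (toSL Y).subtype).codRestrict Y fun x => x.2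

theorem fromSL_surj {Y : Subgroup (E ≃ₗ[K] E)} (h : ∀ g ∈ Y, LinearEquiv.det g = 1) :
    Function.Surjective (fromSL Y) := fun y => ⟨⟨⟨y, h y y.2⟩, y.2⟩, rfl⟩

theorem center_of_scalar {x : SpecialLinearGroup K E} {c : K} (h : ∀ v, x v = c • v) :
    x ∈ center (SpecialLinearGroup K E) := by
  rw [Subgroup.mem_center_iff]
  intro g
  apply SpecialLinearGroup.ext
  intro v
  change g.1 (x v) = x (g.1 v)
  rw [h, h, map_smul]

theorem isoOn_of {B : E → E → K} {Y : Subgroup (E ≃ₗ[K] E)} (h : Isometries B Y)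
    (ho : Odd (Nat.card K)) : IsoOn B (toSL Y) :=
  ⟨fun g hg => h.1 _ hg, fun g g' hg hg' h1 h2 => h.2 g.1 g'.1 h1 h2 g.2 g'.2 hg hg', Or.inl ho⟩

theorem mem_special {B : E → E → K} {Y : Subgroup (E ≃ₗ[K] E)} (h : Special B Y)
    (g : SpecialLinearGroup K E) : g ∈ toSL Y ↔ Pres B g :=
  ⟨fun hg => ((h g.1).mp hg).1, fun hg => (h g.1).mpr ⟨hg, g.2⟩⟩

/-- quotients modulo scalars -/
theorem modScalars_cover {Y : Subgroup (E ≃ₗ[K] E)} {L : Type} [Group L] (h : ModScalars Y L) :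
    ∃ π : toSL Y →* L, Function.Surjective π ∧
      ∀ x : toSL Y, π x ∈ center L → x.1 ∈ center (SpecialLinearGroup K E) := by
  obtain ⟨h1, π, hπ, hc⟩ := h
  refine ⟨π.comp (fromSL Y), hπ.comp (fromSL_surj h1), fun x hx => ?_⟩
  obtain ⟨c, hc⟩ := hc (fromSL Y x) hx
  exact center_of_scalar (c := c) hc

theorem modScalars_quot {Y : Subgroup (E ≃ₗ[K] E)} {T : Type} [Group T] (hT : center T = ⊥)
    (h : ModScalars Y T) : ∃ π : toSL Y →* T, Function.Surjective π ∧
      ∀ x : toSL Y, π x = 1 ↔ x.1 ∈ center (SpecialLinearGroup K E) := by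
  obtain ⟨π, hπ, hc⟩ := modScalars_cover h
  refine ⟨π, hπ, fun x => ⟨fun hx => hc x (by rw [hx]; exact Subgroup.one_mem _), fun hx => ?_⟩⟩
  rw [← Subgroup.mem_bot, ← hT, Subgroup.mem_center_iff]
  intro t
  obtain ⟨y, rfl⟩ := hπ t
  rw [← map_mul, ← map_mul]
  congr 1
  exact Subtype.ext (Subgroup.mem_center_iff.mp hx y.1)

theorem alt_imp [Nontrivial E] {B : E → E → K} {θ : K →+* K} {ε : K} (h : IsForm B θ ε)
    (ha : ∀ x, B x x = 0) : (∀ a, θ a = a) ∧ ε = -1 := by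
  obtain ⟨f1, f2, f3, f4, f5, f6⟩ := h
  let Φ : HForm K E :=
    { B := B, θ := θ, ε := ε, add_left := f1, smul_left := f2, θθ := f3, εε := f4,
      symm := f5, nondeg := f6 }
  have hsk : ∀ x y, B y x = - B x y := by
    intro x y
    have h1 := ha (x + y)
    have h2 : B x (x + y) = B x x + B x y := Φ.add_right x x y
    have h3 : B y (x + y) = B y x + B y y := Φ.add_right y x y
    rw [f1, h2, h3, ha, ha] at h1
    linear_combination h1
  obtain ⟨x, hx⟩ := exists_ne (0 : E)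
  obtain ⟨y, hy⟩ : ∃ y, B x y ≠ 0 := by
    by_contra hcon
    push Not at hcon
    exact hx (f6 x hcon)
  have key : ∀ c : K, ε * θ c = - c := by
    intro c
    have h1 := f5 ((c * (B x y)⁻¹) • x) y
    rw [hsk, f2, mul_assoc, inv_mul_cancel₀ hy, mul_one] at h1
    exact h1.symm
  have he : ε = -1 := by
    have h1 := key 1
    rwa [map_one, mul_one] at h1
  refine ⟨fun a => ?_, he⟩
  have h1 := key a
  rw [he] at h1
  linear_combination -h1

end Forms

section Named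

variable {p n m : ℕ} {D P T : Type} [Group D] [Group P] [Group T]

theorem Named.mono {m' : ℕ} (hm : m ≤ m') (h : Named p n m D T) : Named p n m' D T := by
  rcases h with h | h | h | ⟨K, iK, fK, d, ⟨h1, h2⟩ | h⟩
  · exact Or.inl (h.trans hm)
  · exact Or.inr (Or.inl h)
  · exact Or.inr (Or.inr (Or.inl h))
  · refine Or.inr (Or.inr (Or.inr ⟨K, iK, fK, d, Or.inl ⟨h1, ?_⟩⟩))
    rcases h2 with h2 | h2 | h2 | h2
    · exact Or.inl h2
    · exact Or.inr (Or.inl h2)
    · exact Or.inr (Or.inr (Or.inl h2))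
    · exact Or.inr (Or.inr (Or.inr ⟨h2.1, h2.2.1, h2.2.2.trans hm⟩))
  · exact Or.inr (Or.inr (Or.inr ⟨K, iK, fK, d, Or.inr h⟩))

/-- The named groups are covered or as in `SecG`. -/
theorem named_cases [Finite D] [Nontrivial T] (hT : center T = ⊥) (hs : Sec D P)
    (h : Named p n m D T) : (∀ c e s, Covered c e s p n m T) ∨ SecG p n m P T := by
  rcases h with h | h | h | ⟨K, iK, fK, d, ⟨h1, h2⟩ | ⟨hd, h⟩⟩
  · exact Or.inl fun _ _ _ => Or.inl h
  · exact Or.inl fun _ _ _ => Or.inr (Or.inl h)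
  · exact Or.inl fun _ _ _ => Or.inr (Or.inr (Or.inr (Or.inl h)))
  · by_cases hd2 : d = 2
    · exact Or.inl fun _ _ _ => Or.inr (Or.inr (Or.inr (Or.inr
        ⟨K, iK, fK, d, Or.inl ⟨h1, Or.inl hd2⟩⟩)))
    by_cases hpK : p ∣ Nat.card K
    · exact Or.inl fun _ _ _ => Or.inr (Or.inr (Or.inr (Or.inr
        ⟨K, iK, fK, d, Or.inl ⟨h1, Or.inr (Or.inl hpK)⟩⟩)))
    have hd : 3 ≤ d := by
      by_contra hcon
      have hs1 : Subsingleton (Fin d) := Fin.subsingleton_iff_le_one.mpr (by omega)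
      obtain ⟨e⟩ := h1
      have h3 : Subsingleton (Matrix.ProjectiveSpecialLinearGroup (Fin d) K) :=
        (QuotientGroup.mk_surjective).subsingleton
      exact not_subsingleton T e.toEquiv.subsingleton
    right
    rcases h2 with h2 | h2 | ⟨h2, h3, h4⟩ | ⟨h2, h3, h4⟩
    · exact absurd h2 hd2
    · exact absurd h2 hpK
    · exact ⟨K, iK, fK, d, hd, hpK, Or.inl ⟨Or.inl ⟨⟨h3, h4⟩, h1⟩, mild_sec hs h2⟩⟩
    · refine ⟨K, iK, fK, d, hd, hpK, Or.inr ⟨h1, h3, fun j g1 g2 => ?_,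
        Or.inr fun A hA => Or.inl (sec_eng (isSec_trans hs hA) h2)⟩⟩
      exact (Nat.le_of_dvd (Nat.gcd_pos_of_pos_left _ (by omega)) (Nat.dvd_gcd g1 g2)).trans h4
  · obtain ⟨B, θ, ε, Y, hB, hY, h⟩ := h
    obtain ⟨π, hπ, hker⟩ := modScalars_quot hT hY
    have cin : p ∣ Nat.card K → IsoOn B (toSL Y) →
        ((∀ x, B x x = 0) ∨ (∃ a, θ a ≠ a) ∨ (Odd (Nat.card K) ∧ d ≠ 4)) →
        ∀ c e s, Covered c e s p n m T := fun g1 g2 g3 _ _ _ =>
      Or.inr (Or.inr (Or.inl ⟨K, iK, fK, d, g1, hd,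
        Or.inl ⟨toSL Y, π, ⟨θ, ε, B, hB, g2, g3⟩, hπ, hker⟩⟩))
    have sp : Special B Y → IsoOn B (toSL Y) := fun g =>
      ⟨fun x hx => (mem_special g x).mp hx,
        fun x y hx _ hx' _ => absurd ((mem_special g x).mpr hx') hx,
        Or.inr fun x hx => (mem_special g x).mpr hx⟩
    rcases h with ⟨hpK, ⟨g1, g2, g3⟩ | ⟨g1, g2⟩⟩ | ⟨hlin, hm, g1, g2⟩
    · exact Or.inl (cin hpK (isoOn_of g3 g1) (Or.inr (Or.inr ⟨g1, g2⟩)))
    · exact Or.inl (cin hpK (sp g1) (g2.imp_right Or.inl))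
    by_cases hpK : p ∣ Nat.card K
    · exact Or.inl (cin hpK (sp g1) (g2.imp (fun g => g.1) fun g => Or.inl g.1))
    right
    have hnt : Nontrivial (Fin d → K) := by
      have : Nonempty (Fin d) := ⟨⟨0, by omega⟩⟩
      infer_instance
    rcases g2 with ⟨g2, g3, g4⟩ | ⟨g2, g3, g4⟩
    · obtain ⟨g5, g6⟩ := alt_imp hB g2
      exact ⟨K, iK, fK, d, hd, hpK, Or.inl ⟨Or.inr ⟨θ, ⟨hd, ε, B, toSL Y, π,
        Or.inl ⟨g5, g6, g3, g2⟩, hB, mem_special g1, hπ, hker⟩, hlin, g4, Or.inr g5⟩,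
        mild_sec hs hm⟩⟩
    · exact ⟨K, iK, fK, d, hd, hpK, Or.inl ⟨Or.inr ⟨θ, ⟨hd, ε, B, toSL Y, π,
        Or.inr ⟨g2, g3⟩, hB, mem_special g1, hπ, hker⟩, hlin, by omega, Or.inl g4⟩,
        mild_sec hs hm⟩⟩

theorem center_bot [IsSimpleGroup T] (h : ¬ ∀ a b : T, a * b = b * a) : center T = ⊥ := by
  rcases (inferInstance : (center T).Normal).eq_bot_or_eq_top with h1 | h1
  · exact h1
  · exfalso
    apply h
    intro a b
    exact Subgroup.mem_center_iff.mp (show b ∈ center T by rw [h1]; trivial) a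

theorem center_quot {L : Type} [Group L] (h1 : commutator L = ⊤)
    (h2 : IsSimpleGroup (L ⧸ center L)) : center (L ⧸ center L) = ⊥ := by
  refine center_bot fun h => ?_
  have h3 : commutator L ≤ center L := by
    rw [commutator_def, Subgroup.commutator_le]
    intro x _ y _
    rw [← QuotientGroup.eq_one_iff, commutatorElement_def, QuotientGroup.mk_mul,
      QuotientGroup.mk_mul, QuotientGroup.mk_mul, QuotientGroup.mk_inv, QuotientGroup.mk_inv,
      h (x : L ⧸ center L) y]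
    group
  rw [h1] at h3
  obtain ⟨x, hx⟩ := exists_ne (1 : L ⧸ center L)
  obtain ⟨y, rfl⟩ := QuotientGroup.mk_surjective x
  exact hx ((QuotientGroup.eq_one_iff y).mpr (h3 trivial))

end Named

section Comp

variable {p n m : ℕ} [Fact p.Prime] {G : Type} [Group G] [Finite G]

theorem conj_gam (D L : Subgroup G) : ∀ x ∈ D.subgroupOf L, MulAut.conj x ∈ Gam D L :=
  fun x hx => conj_mem_Gam.mpr (inf_le_Pj D L ⟨Subgroup.mem_subgroupOf.mp hx, x.2⟩)

/-- components with simple quotient as in `SecG` -/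
theorem secG_comp {P : Type} [Group P] {D L : Subgroup G} (hD : IsPGroup p D)
    (hL : commutator L = ⊤) (hsec : IsSec P (Gam D L)) (h : SecG p n m P (L ⧸ center L)) :
    Nat.card (L ⧸ center L) ≤ 9 ^ 16 ∨ LinG p n m L (Gam D L) (D.subgroupOf L) ∨
      (IsoG p L (Gam D L) (D.subgroupOf L) ∧ SolvOut L) := by
  have hDL : IsPGroup p (D.subgroupOf L) :=
    hD.comap_of_injective L.subtype L.subtype_injective
  rcases VG.secG_cases h with h | h | h
  · rcases cls_of_sec hD hL hsec (conj_gam D L) h with h5 | h5 | h5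
    · exact Or.inl h5
    · exact Or.inr (Or.inl (linG_iff.mpr (Or.inl h5)))
    · exact Or.inr (Or.inr h5)
  · rcases secStmt p m _ L _ _ hL hDL hsec (conj_gam D L) h with h5 | h5
    · exact Or.inl h5
    · exact Or.inr (Or.inl (linG_iff.mpr (Or.inr (outW_of_outX h5))))
  · rcases VG.outW_of_secL (Γ := Gam D L) (A := D.subgroupOf L) hL h with h5 | h5
    · exact Or.inl h5
    · exact Or.inr (Or.inl (linG_iff.mpr (Or.inr h5)))

theorem isSec_gam {D P : Subgroup G} (hPD : P ≤ D) (L : Subgroup G) : IsSec D (Gam P L) := by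
  let Q : Subgroup D := (P ⊓ normalizer (L : Set G)).subgroupOf D
  let j : Q →* normalizer (L : Set G) :=
    (D.subtype.comp Q.subtype).codRestrict _ fun x => x.2.2
  refine ⟨Q, L.normalizerMonoidHom.comp j, ?_⟩
  ext α
  constructor
  · rintro ⟨x, rfl⟩
    exact ⟨j x, x.2.1, rfl⟩
  · rintro ⟨g, hg, rfl⟩
    exact ⟨⟨⟨g, hPD hg⟩, hg, g.2⟩, rfl⟩

/-- inner actions -/
theorem good_inner {D P L : Subgroup G} (hPD : P ≤ D)
    (h1 : D ⊓ normalizer (L : Set G) ≤ L ⊔ centralizer (L : Set G))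
    (h2 : IsCyclic (D ⊓ L : Subgroup G) ∨ (OddForm p L ∧
      ((∀ x ∈ D ⊓ L, ∀ y ∈ D ⊓ L, x * y = y * x) ∨ Nat.card (D ⊓ L : Subgroup G) < p ^ p))) :
    TameAct p m L (Gam P L) (P.subgroupOf L) ∨ IsoG p L (Gam P L) (P.subgroupOf L) := by
  have hin : Gam P L ≤ (MulAut.conj : L →* MulAut L).range :=
    gam_le_iff ((inf_le_inf_right _ hPD).trans h1)
  let j : P.subgroupOf L →* (D ⊓ L : Subgroup G) :=
    (L.subtype.comp (P.subgroupOf L).subtype).codRestrict _ fun x => ⟨hPD x.2, x.1.2⟩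
  have hj : Function.Injective j := fun x y h =>
    Subtype.ext (Subtype.ext (congrArg (fun z : (D ⊓ L : Subgroup G) => (z : G)) h))
  rcases h2 with h2 | ⟨⟨K, iK, fK, d, B, θ, ε, Y, hd, ho, hpK, hB, hY, hlin, hM⟩, h2⟩
  · exact Or.inl (Or.inr (Or.inl ⟨Or.inl (isCyclic_of_injective j hj), Or.inl hin⟩))
  right
  obtain ⟨π, hπ, hc⟩ := modScalars_cover hM
  refine ⟨K, iK, fK, d, by omega, B, θ, toSL Y, π, ⟨⟨ε, hB⟩, isoOn_of hY ho, Or.inl ho⟩,
    ⟨hπ, hc, fun α hα => ?_⟩, Or.inl hd, Or.inr ⟨Or.inr ⟨Or.inl hin, ?_⟩, hpK, hlin⟩⟩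
  · obtain ⟨l, rfl⟩ := hin hα
    obtain ⟨x₀, rfl⟩ := hπ l
    refine ⟨RingEquiv.refl K, 1, x₀.1.1, x₀.1.1.bijective, map_add _, fun a v => map_smul _ a v,
      fun v w => ?_, fun x => ⟨x₀ * x * x₀⁻¹, fun v => ?_, ?_⟩⟩
    · rw [one_mul]
      exact hY.1 _ x₀.2 v w
    · change x₀.1.1 (x.1.1 v) = x₀.1.1 (x.1.1 (x₀.1.1.symm (x₀.1.1 v)))
      rw [LinearEquiv.symm_apply_apply]
    · rw [map_mul, map_mul, map_inv]
      rfl
  · rcases h2 with h2 | h2
    · left
      intro x hx y hy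
      exact Subtype.ext (h2 x ⟨hPD hx, x.2⟩ y ⟨hPD hy, y.2⟩)
    · right
      exact ((card_map_le' _ _).trans (Nat.card_le_card_of_injective j hj)).trans_lt h2

/-- central `p`-elements of components -/
theorem cen_le {L E P : Subgroup G} (hE : E.Normal) (hLE : L ≤ E)
    (hEL : ∀ x ∈ E, ∀ y ∈ L, x * y * x⁻¹ ∈ L)
    (hO : ∀ V : Subgroup G, V.Normal → IsPGroup p V → V ≤ P) {z : L} (hz : z ∈ center L) {j : ℕ}
    (hj : z ^ p ^ j = 1) : (z : G) ∈ P := by
  let W : Subgroup G :=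
    { carrier := {x | x ∈ L ∧ (∀ y ∈ L, x * y = y * x) ∧ ∃ i, x ^ p ^ i = 1}
      one_mem' := ⟨L.one_mem, fun y _ => by rw [one_mul, mul_one], 0, one_pow _⟩
      mul_mem' := by
        rintro a b ⟨a1, a2, i, a3⟩ ⟨b1, b2, l, b3⟩
        refine ⟨L.mul_mem a1 b1, fun y hy => ?_, i + l, ?_⟩
        · rw [mul_assoc, b2 y hy, ← mul_assoc, a2 y hy, mul_assoc]
        · have hc : Commute a b := a2 b b1
          rw [hc.mul_pow, pow_add, pow_mul, a3, one_pow, one_mul, mul_comm (p ^ i), pow_mul, b3,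
            one_pow]
      inv_mem' := by
        rintro a ⟨a1, a2, i, a3⟩
        refine ⟨L.inv_mem a1, fun y hy => ?_, i, by rw [inv_pow, a3, inv_one]⟩
        have hc : Commute a y := a2 y hy
        exact hc.inv_left }
  have hWp : IsPGroup p W := fun x => by
    obtain ⟨i, hi⟩ := x.2.2.2
    exact ⟨i, Subtype.ext hi⟩
  have hWn : ∀ e ∈ E, ∀ x ∈ W, e * x * e⁻¹ ∈ W := by
    rintro e he x ⟨x1, x2, i, x3⟩
    refine ⟨hEL e he x x1, fun y hy => ?_, i, by rw [conj_pow, x3, mul_one, mul_inv_cancel]⟩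
    have h1 := x2 _ (hEL e⁻¹ (E.inv_mem he) y hy)
    calc e * x * e⁻¹ * y = e * (x * (e⁻¹ * y * e⁻¹⁻¹)) * e⁻¹ := by group
      _ = e * ((e⁻¹ * y * e⁻¹⁻¹) * x) * e⁻¹ := by rw [h1]
      _ = y * (e * x * e⁻¹) := by group
  have hzW : (z : G) ∈ W :=
    ⟨z.2, fun y hy => congrArg Subtype.val (Subgroup.mem_center_iff.mp hz ⟨y, hy⟩).symm, j,
      congrArg Subtype.val hj⟩
  obtain ⟨S⟩ : Nonempty (Sylow p E) := inferInstance
  refine hO ((S : Subgroup E).map E.subtype).normalCore inferInstance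
    ((S.isPGroup'.map _).to_le (Subgroup.normalCore_le _)) fun g => ?_
  let φ : E →* G := (MulAut.conj g⁻¹).toMonoidHom.comp E.subtype
  have hφ : ∀ x : E, φ x = g⁻¹ * x * g⁻¹⁻¹ := fun x => rfl
  have hφi : Function.Injective φ := (MulAut.conj g⁻¹).injective.comp E.subtype_injective
  have hn : (W.comap φ).Normal := ⟨fun x hx e => by
    rw [Subgroup.mem_comap, map_mul, map_mul, map_inv]
    exact hWn _ (hE.conj_mem _ e.2 g⁻¹) _ hx⟩
  have h1 := (hWp.comap_of_injective φ hφi).le_sylow_of_normal S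
  refine ⟨⟨g * z * g⁻¹, hE.conj_mem _ (hLE z.2) g⟩, h1 ?_, rfl⟩
  rw [Subgroup.mem_comap, hφ]
  have h2 : g⁻¹ * (g * (z : G) * g⁻¹) * g⁻¹⁻¹ = z := by group
  rw [h2]
  exact hzW

/-- central elements of quotients of special linear groups -/
theorem exists_cen {K : Type} [Field K] [Finite K] {d : ℕ} (hd : 3 ≤ d) {L : Type} [Group L]
    (π : SpecialLinearGroup K (Fin d → K) →* L) (hπ : Function.Surjective π)
    (hk : ¬ p ∣ Nat.card π.ker) {j : ℕ} (h1 : p ^ j ∣ d) (h2 : p ^ j ∣ Nat.card K - 1) :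
    ∃ z ∈ center L, orderOf z = p ^ j := by
  have hp : p.Prime := Fact.out
  obtain ⟨g, hg⟩ := IsCyclic.exists_ofOrder_eq_natCard (α := Kˣ)
  rw [← Nat.card_units, ← hg] at h2
  have h3 : orderOf (g ^ (orderOf g / p ^ j)) = p ^ j :=
    orderOf_pow_orderOf_div (orderOf_pos g).ne' h2
  have h4 : g ^ (orderOf g / p ^ j) ∈ rootsOfUnity (max (Module.finrank K (Fin d → K)) 1) K := by
    rw [mem_rootsOfUnity, Module.finrank_fin_fun, max_eq_left (by omega),
      ← orderOf_dvd_iff_pow_eq_one, h3]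
    exact h1
  obtain ⟨c, hc⟩ : ∃ c : center (SpecialLinearGroup K (Fin d → K)), orderOf c = p ^ j :=
    ⟨SpecialLinearGroup.centerEquivRootsOfUnity.symm ⟨_, h4⟩, by
      rw [MulEquiv.orderOf_eq, Subgroup.orderOf_mk, h3]⟩
  have hc' : orderOf (c : SpecialLinearGroup K (Fin d → K)) = p ^ j := by
    rw [Subgroup.orderOf_coe, hc]
  refine ⟨π c, ?_, Nat.dvd_antisymm ?_ ?_⟩
  · rw [Subgroup.mem_center_iff]
    intro t
    obtain ⟨y, rfl⟩ := hπ t
    rw [← map_mul, ← map_mul, Subgroup.mem_center_iff.mp c.2 y]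
  · rw [← hc']
    exact orderOf_map_dvd π _
  · have h5 : (c : SpecialLinearGroup K (Fin d → K)) ^ orderOf (π c) ∈ π.ker := by
      rw [MonoidHom.mem_ker, map_pow, pow_orderOf_eq_one]
    have h6 := Subgroup.orderOf_dvd_natCard _ h5
    have h7 : orderOf ((c : SpecialLinearGroup K (Fin d → K)) ^ orderOf (π c)) ∣ p ^ j := by
      rw [← hc']
      exact orderOf_pow_dvd _
    have h8 : Nat.Coprime (p ^ j) (Nat.card π.ker) :=
      Nat.Coprime.pow_left _ ((Nat.Prime.coprime_iff_not_dvd hp).mpr hk)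
    have h9 := Nat.eq_one_of_dvd_coprimes h8 h7 h6
    rw [← hc', orderOf_dvd_iff_pow_eq_one]
    exact orderOf_eq_one_iff.mp h9

/-- quotients of special linear groups -/
theorem linG_of {m' : ℕ} {D P L : Subgroup G} (hPD : P ≤ D) (hn : Nat.card P ≤ m') (hm : m ≤ m')
    (hZ : ∀ z ∈ center L, ∀ j : ℕ, z ^ p ^ j = 1 → (z : G) ∈ P) (h : LinComp p m D L) :
    LinG p n m' L (Gam P L) (P.subgroupOf L) := by
  obtain ⟨K, iK, fK, d, π, hd, hpK, hπ, hk, h1, h2, h3⟩ := h
  refine ⟨K, iK, fK, d, hd, hpK, Or.inr ⟨π, hπ, hk, fun j g1 g2 => ?_, Or.inl ⟨?_, Or.inl ?_⟩⟩⟩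
  · rcases h1 with h1 | h1
    · obtain ⟨z, hz, hzj⟩ := exists_cen hd π hπ h1 g1 g2
      have h4 := hZ z hz j (by rw [← hzj, pow_orderOf_eq_one])
      have h5 := Subgroup.orderOf_dvd_natCard _ h4
      rw [Subgroup.orderOf_coe, hzj] at h5
      exact (Nat.le_of_dvd Nat.card_pos h5).trans hn
    · exact ((Nat.le_of_dvd (Nat.gcd_pos_of_pos_left _ (by omega))
        (Nat.dvd_gcd g1 g2)).trans h1).trans hm
  · refine h2.imp_right fun h2 => ?_
    rintro _ ⟨r, hr, rfl⟩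
    obtain ⟨g, hg⟩ := h2 r ⟨hPD hr, r.2⟩
    exact ⟨g, g.bijective, map_add g, map_smul g, fun s t hst => Subtype.ext (hg s t hst).symm⟩
  · refine sec_eng ⟨((P.subgroupOf L).comap π).subgroupOf _,
      ((D.subgroupOf L).comap π).subtype.comp (Subgroup.subtype _), ?_⟩ h3
    ext x
    constructor
    · rintro ⟨y, rfl⟩
      exact y.2
    · intro hx
      exact ⟨⟨⟨x, hPD hx⟩, hx⟩, rfl⟩

/-- good components -/
theorem good_comp {m₀ : ℕ} {D P L : Subgroup G} (hPD : P ≤ D) (hP : IsPGroup p P)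
    (hL : Quasisimple L) (hn : Nat.card P ≤ m) (hm : m₀ ≤ m)
    (hZ : ∀ z ∈ center L, ∀ j : ℕ, z ^ p ^ j = 1 → (z : G) ∈ P)
    (h : Good p n m₀ D D L) : TameCompG p n (max m (9 ^ 16)) P L := by
  rcases h with h | h | h | ⟨h1, h2, h3⟩
  · refine Or.inl (Or.inr (Or.inr fun x hx hxL y hy => ?_))
    exact (Subgroup.mem_centralizer_iff.mp (h ⟨hPD hx, hxL⟩) y hy).symm
  · have := hL.2
    rcases named_cases (center_quot hL.1 hL.2) (sec_refl D)
      (h.mono (hm.trans (le_max_left m (9 ^ 16)))) with h | h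
    · exact Or.inl (Or.inl (h _ _ _))
    · rcases secG_comp hP hL.1 (isSec_gam hPD L) h with h | h | h
      · exact Or.inl (Or.inl (Or.inl (h.trans (le_max_right _ _))))
      · exact Or.inr (Or.inl h)
      · exact Or.inr (Or.inr ⟨h.1, Or.inr h.2⟩)
  · exact Or.inr (Or.inl (linG_of hPD (hn.trans (le_max_left _ _)) (hm.trans (le_max_left _ _))
      hZ h))
  · rcases good_inner (m := max m (9 ^ 16)) hPD h1 h3 with h | h
    · exact Or.inl (Or.inr (Or.inl ⟨h, Or.inr h2⟩))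
    · exact Or.inr (Or.inr ⟨h, Or.inr h2⟩)

/-- the class `Layered` -/
theorem tame_of_layered {m₀ : ℕ} {D P : Subgroup G} (hPD : P ≤ D) (hP : IsPGroup p P)
    (hn : Nat.card P ≤ m) (hm : m₀ ≤ m)
    (hO : ∀ V : Subgroup G, V.Normal → IsPGroup p V → V ≤ P)
    (h : Layered p n m₀ G D) : HasTameSectionsG p n (max m (9 ^ 16)) P := by
  obtain ⟨N, M, r, L, hN, hM, hNM, hDM, hNL, hcomm, hL, hS⟩ := h
  have hLN : ∀ j, L j ≤ N := fun j => by rw [hNL]; exact le_iSup L j
  have hnorm : ∀ j, ∀ x ∈ N, ∀ y ∈ L j, x * y * x⁻¹ ∈ L j := by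
    intro j
    have h1 : N ≤ normalizer (L j : Set G) := by
      rw [hNL]
      refine iSup_le fun i => ?_
      by_cases hij : i = j
      · rw [hij]
        exact Subgroup.le_normalizer
      · exact (hcomm i j hij).trans (Subgroup.centralizer_le_normalizer _)
    exact fun x hx y hy => (Subgroup.mem_normalizer_iff.mp (h1 hx) y).mp hy
  refine ⟨1, fun i => if i = 0 then N else M, fun i => ?_, ⟨r, L, ?_, hNL, fun j =>
    ⟨(hL j).1, good_comp hPD hP (hL j).1 hn hm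
      (fun z hz i hi => cen_le hN (hLN j) (hnorm j) hO hz hi) (hL j).2⟩⟩, hPD.trans hDM,
    fun i hi => ?_⟩
  · dsimp only
    split_ifs
    · exact hN
    · exact hM
  · intro i j hij x hx y hy
    exact (Subgroup.mem_centralizer_iff.mp (hcomm i j hij hx) y hy).symm
  · obtain rfl : i = 0 := by omega
    refine ⟨hNM, ?_⟩
    intro S T _ _ f h1 h2 h3 h4 h5
    have hs : Sec D (P.map (QuotientGroup.mk' N)) := by
      refine ⟨P.subgroupOf D, ((QuotientGroup.mk' N).comp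
        (D.subtype.comp (P.subgroupOf D).subtype)).codRestrict _ fun x => ⟨x.1.1, x.2, rfl⟩, ?_⟩
      rintro ⟨_, x, hx, rfl⟩
      exact ⟨⟨⟨x, hPD hx⟩, hx⟩, rfl⟩
    rcases named_cases (center_bot h4) hs
      ((hS S T f h1 h2 h3 h4 h5).mono (hm.trans (le_max_left m (9 ^ 16)))) with h | h
    · exact Or.inl (h _ _ _)
    · exact Or.inr (Or.inl h)

end Comp

open Vale.Agent.P180.I in
/-- **Part one.** -/
theorem donovan_layered (p : ℕ) [Fact p.Prime] (n m : ℕ) :
    Donovan.{u} p n (Layered p n m) := by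
  obtain ⟨r, H, iG, iF, h1, h2⟩ := finalC.{u} (uni_T p n _ _)
    (fun k _ _ _ => locG glStmtB isoStmt outStmtN glStmt thruStmt p n (max (max m n) (9 ^ 16)) k)
    VG.ctr_conC (fun k _ _ _ G _ _ b D L => VG.noC secStmt k G b D L)
  have hc : ∀ {G : Type} [Group G] [Finite G] {P D : Subgroup G}, P ≤ D → Nat.card D ≤ n →
      Nat.card P ≤ max m n := fun hPD hn =>
    ((Subgroup.card_le_of_le hPD).trans hn).trans (le_max_right _ _)
  refine ⟨r, H, iG, iF, ?_, ?_⟩
  · intro k _ _ _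
    obtain ⟨c, hc', h⟩ := h1 k
    refine ⟨c, hc', ?_⟩
    intro G _ _ b hb D hD hn hs
    rw [MonoidAlgebra.mapRingHom_id, RingHom.id_apply, or_self] at hD
    have hb' := isBlockR_iff.mp hb
    exact Or.inl (h G b hb D hD hn (fun P a hPD hP ha hba hbr =>
      VG.conC_of_tame (tame_of_layered hPD hP (hc hPD hn) (le_max_left _ _)
        (fun V _ hV => op_le p hV hb'.idem hb'.ne_zero ha hba) hs) le_rfl hP hb' ha hba hbr))
  · intro O _ _ _ _ _ _
    obtain ⟨c, hc', h⟩ := h2 O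
    refine ⟨c, hc', ?_⟩
    intro G _ _ B hB D hD hn hs
    have hb' := (isBlock_rd hB).1
    exact Or.inl (h G B hB D hD hn (fun P a hPD hP ha hba hbr =>
      VG.conC_of_tame (tame_of_layered hPD hP (hc hPD hn) (le_max_left _ _)
        (fun V _ hV => op_le p hV hb'.idem hb'.ne_zero ha hba) hs) le_rfl hP hb' ha hba hbr))

theorem critical_of {p n m : ℕ} [Fact p.Prime] {k : Type u} [Field k] [CharP k p] {G G' : Type}
    [Group G] [Finite G] [Group G'] [Finite G'] {D : Subgroup G} {b' : MonoidAlgebra k G'}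
    (hb : IsBlock b') (hn : Nat.card D ≤ n)
    (h : IsCriticalR (ExcJ (ExcG p n (max m n)) D) p (Nat.card D) b') :
    Critical p n m k G G' D b' := by
  obtain ⟨-, D', hD', hp', hc, L, ⟨hq, E, hE, hLE, hEL⟩, -, ⟨x, hx, hxL, hxc⟩,
    ⟨⟨hX1, hX2⟩, h9, hLin, hIso⟩, hinv, hact, -⟩ := h
  refine ⟨D', L, E, hD', hc, hE, hLE, ?_, hq, ?_, hinv, ?_⟩
  · intro g hg
    rw [Subgroup.mem_normalizer_iff]
    intro y
    constructor
    · exact hEL g hg y
    · intro hy
      have h1 := hEL g⁻¹ (E.inv_mem hg) _ hy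
      simpa [mul_assoc] using h1
  · rintro (h | h | h | ⟨h1, h2, h3⟩)
    · exact hxc fun y hy => (Subgroup.mem_centralizer_iff.mp (h ⟨hx, hxL⟩) y hy).symm
    · have := hq.2
      rcases named_cases (center_quot hq.1 hq.2) (sec_refl D) (h.mono (le_max_left m n)) with h | h
      · exact hX1 (h _ _ _)
      · rcases secG_comp hp' hq.1 (isSec_of hact) h with h | h | h
        · exact absurd h (not_le.mpr h9)
        · exact hLin h
        · exact hIso ⟨h.1, Or.inr h.2⟩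
    · obtain ⟨a, ha, hba⟩ := exists_trace hb (hb.isSummand hD'.prop)
      exact hLin (linG_of le_rfl ((hc.trans hn).trans (le_max_right _ _)) (le_max_left _ _)
        (fun z hz i hi => cen_le hE hLE hEL
          (fun V _ hV => op_le p hV hb.idem hb.ne_zero ha hba) hz hi) h)
    · rcases good_inner (m := max m n) le_rfl h1 h3 with h | h
      · rcases hX2 with h4 | h4
        · exact h4.1 h2
        · exact h4.2.2 h
      · exact hIso ⟨h, Or.inr h2⟩
  · rcases hX2 with h4 | h4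
    · exact Or.inl h4.1
    · refine Or.inr fun h5 => h4.1 ?_
      obtain ⟨f, i, hi, g1, g2, g3, g4, g5, g6⟩ := h5
      exact ⟨f, i, hi, g1, g2, g3, g4, g5, g6.trans (le_max_left _ _)⟩

open Vale.Agent.P180.I in
/-- **Part three.** -/
theorem reduction (p : ℕ) [Fact p.Prime] (n m : ℕ) :
    FinOr.{u} p n (fun _ _ _ => True) (Critical p n m) := by
  obtain ⟨r, H, iG, iF, h1, h2⟩ := finalJ.{u} (uni_T p n _ _)
    (fun k _ _ _ => locG glStmtB isoStmt outStmtN glStmt thruStmt p n (max m n) k)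
  refine ⟨r, H, iG, iF, ?_, ?_⟩
  · intro k _ _ _
    obtain ⟨c, hc, h⟩ := h1 k
    refine ⟨c, hc, ?_⟩
    intro G _ _ b hb D hD hn _
    rw [MonoidAlgebra.mapRingHom_id, RingHom.id_apply, or_self] at hD
    rcases h G b hb D hD hn with h | ⟨G', iG', fG', b', hb', hM, hC⟩
    · exact Or.inl h
    · refine Or.inr ⟨G', iG', fG', b', hb', hM, ?_⟩
      rw [MonoidAlgebra.mapRingHom_id, RingHom.id_apply]
      exact critical_of (isBlockR_iff.mp hb') hn hC
  · intro O _ _ _ _ _ _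
    obtain ⟨c, hc, h⟩ := h2 O
    refine ⟨c, hc, ?_⟩
    intro G _ _ B hB D hD hn _
    rcases h G B hB D hD hn with h | ⟨G', iG', fG', b', hb', hM, hC⟩
    · exact Or.inl h
    · exact Or.inr ⟨G', iG', fG', b', hb', hM, critical_of (isBlock_rd hb').1 hn hC⟩

end Vale.Agent.N180
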