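import Vale.Agent.N180.Defs
import Vale.Agent.P180.H396.CritK

/-!
P180: small idempotents for the pairs of the class `Built`.
-/

set_option linter.all false

namespace Vale.Agent.N180

open Module Subgroup Vale.Agent.P180 Vale.Agent.P180.H768.Gd Vale.Agent.P180.R2.H471.Hc
  Vale.Agent.P180.R2.H799 Vale.Agent.P180.R2.H954 Vale.Agent.P180.H951
open Vale.Agent.P180.R2.H259.Cyc (cycB cycB_mono PrimIn)
open Vale.Agent.P180.R2.H259.Exp (exists_prim_br exists_chi oneBd_ker)
open Vale.Agent.P180.H19.Pidx (oneBd_pidx_of)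
open Vale.Agent.P180.R2.H854 (HForm)
open Vale.Agent.P180.H393.Fm (IsoG)

universe u

section Basic

variable {k : Type u} [Field k] [IsAlgClosed k] {p : ℕ} [Fact p.Prime] [CharP k p]

theorem one_mono {G : Type} [Group G] [Finite G] {Q : Subgroup G} {C C' : ℕ} (h : OneBd k Q C)
    (hC : C ≤ C') : OneBd k Q C' := by
  intro e a he ha hea hbr
  obtain ⟨i, h1, h2, h3, h4, h5⟩ := h e a he ha hea hbr
  exact ⟨i, h1, h2, h3, h4, h5.trans hC⟩

/-- blocks of defect zero -/
theorem one_bot {G : Type} [Group G] [Finite G] : OneBd k (⊥ : Subgroup G) 1 := by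
  classical
  intro e a he ha hea hbr
  have _ := Fintype.ofFinite G
  obtain ⟨i, hi, h1, h2, h3⟩ := exists_prim_br (S := (⊤ : Subalgebra k (MonoidAlgebra k G)))
    (Q := ⊥) Algebra.mem_top he.idem.eq hbr
  refine ⟨i, mem_Fix_bot _, hi.idem, h1, h3, ?_⟩
  exact R2.H259.Cyc.dim_one (z := a) hi (by rw [hea, tr_bot_top]; rfl) h1

/-- small groups -/
theorem one_small {G : Type} [Group G] [Finite G] (Q : Subgroup G) :
    OneBd k Q (Nat.card G) := by
  classical
  intro e a he ha hea hbr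
  have _ := Fintype.ofFinite G
  refine ⟨e, Fix_mono _ le_top he.mem.2, he.idem.eq, he.idem.eq, hbr, ?_⟩
  have hfin : FiniteDimensional k (MonoidAlgebra k G) :=
    Module.Finite.equiv (MonoidAlgebra.coeffLinearEquiv k (M := G) (S := k)).symm
  refine (Submodule.finrank_le _).trans (le_of_eq ?_)
  rw [(MonoidAlgebra.coeffLinearEquiv k (M := G) (S := k)).finrank_eq, Module.finrank_finsupp_self,
    Nat.card_eq_fintype_card]

/-- descent to a subgroup which is the kernel of a character of a larger subgroup -/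
theorem one_desc {G : Type} [Group G] [Finite G] {X Y : Subgroup G} (hXY : X ≤ Y) (χ : Y →* kˣ)
    (hχ : ∀ y : Y, χ y = 1 ↔ (y : G) ∈ X) {Q : Subgroup X} (hQ : IsPGroup p Q) {C : ℕ}
    (h : OneBd k (Q.map (Subgroup.inclusion hXY)) C) :
    OneBd k Q ((Nat.card Q).factorial * C) := by
  refine H396.oneBd_emb (Subgroup.inclusion hXY) (Subgroup.inclusion_injective hXY) χ ?_ hQ h
  ext y
  rw [MonoidHom.mem_ker, hχ]
  constructor
  · intro hy
    exact ⟨⟨y, hy⟩, Subtype.ext rfl⟩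
  · rintro ⟨x, rfl⟩
    exact x.2

end Basic

section Lin

variable {k : Type u} [Field k] [IsAlgClosed k] {p : ℕ} [Fact p.Prime] [CharP k p]
  {K V : Type} [Field K] [Finite K] [AddCommGroup V] [Module K V] [Finite V]

theorem fin_gl : Finite (V ≃ₗ[K] V) :=
  Finite.of_injective (fun g : V ≃ₗ[K] V => (g : V → V)) DFunLike.coe_injective

/-- A subgroup which contains the elements of determinant one of a subgroup `W` is the kernel of a
power of the determinant. -/
theorem exists_det_pow {W Y : Subgroup (V ≃ₗ[K] V)} (hYW : Y ≤ W)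
    (hY : ∀ g ∈ W, LinearEquiv.det g = 1 → g ∈ Y) :
    ∃ t : ℕ, 0 < t ∧ ∀ g ∈ W, (g ∈ Y ↔ LinearEquiv.det g ^ t = 1) := by
  classical
  let Z : Subgroup Kˣ := Y.map (LinearEquiv.det : (V ≃ₗ[K] V) →* Kˣ)
  refine ⟨Nat.card Z, Nat.card_pos, fun g hg => ⟨fun hgY => ?_, fun h => ?_⟩⟩
  · have h1 : (⟨LinearEquiv.det g, ⟨g, hgY, rfl⟩⟩ : Z) ^ Nat.card Z = 1 := pow_card_eq_one'
    exact congrArg Subtype.val h1
  · -- the roots of unity of order dividing `|Z|` are the elements of `Z`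
    have hZ : Z = (powMonoidHom (Nat.card Z) : Kˣ →* Kˣ).ker := by
      refine Subgroup.eq_of_le_of_card_ge ?_ ?_
      · intro z hz
        have h1 : (⟨z, hz⟩ : Z) ^ Nat.card Z = 1 := pow_card_eq_one'
        exact congrArg Subtype.val h1
      · rw [IsCyclic.card_powMonoidHom_ker]
        exact Nat.gcd_le_right _ Nat.card_pos
    have h2 : LinearEquiv.det g ∈ Z := by
      rw [hZ]
      exact h
    obtain ⟨y, hy, hyg⟩ := h2
    have h3 : y⁻¹ * g ∈ Y := hY _ (W.mul_mem (W.inv_mem (hYW hy)) hg) (by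
      rw [map_mul, map_inv, hyg, inv_mul_cancel])
    have h4 := Y.mul_mem hy h3
    rwa [mul_inv_cancel_left] at h4

/-- the bound for the groups between the special and the general linear group -/
noncomputable def midC (p n : ℕ) : ℕ := max (n.factorial * glC p (n ^ 2)) (cycB p n)

/-- **Groups between the special and the general linear group.** -/
theorem one_mid (hpK : ¬ p ∣ Nat.card K) {Y : Subgroup (V ≃ₗ[K] V)}
    (hY : ∀ g, LinearEquiv.det g = 1 → g ∈ Y) [Finite Y] {n : ℕ} {Q : Subgroup Y}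
    (hQ : IsPGroup p Q) (hQn : Nat.card Q ≤ n) (hab : ∀ x ∈ Q, ∀ y ∈ Q, x * y = y * x) :
    OneBd k Q (midC p n) := by
  classical
  have hp : p.Prime := Fact.out
  have hfin : Finite (V ≃ₗ[K] V) := fin_gl
  by_cases hcyc : IsCyclic Q
  · exact one_mono (oneBd_cyc hQ hcyc) ((cycB_mono hQn).trans (le_max_right _ _))
  obtain ⟨t, ht, hYt⟩ := exists_det_pow (W := ⊤) (Y := Y) le_top (fun g _ => hY g)
  have hq : Nat.card K - 1 ≠ 0 := by
    have := Finite.one_lt_card (α := K)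
    omega
  set s := ordCompl[p] (Nat.card K - 1) with hs
  let φ : (V ≃ₗ[K] V) →* Kˣ := (powMonoidHom t : Kˣ →* Kˣ).comp LinearEquiv.det
  let ψ : (V ≃ₗ[K] V) →* Kˣ := (powMonoidHom s : Kˣ →* Kˣ).comp φ
  let N : Subgroup (V ≃ₗ[K] V) := ψ.ker
  have hφY : ∀ g, g ∈ Y ↔ φ g = 1 := fun g => hYt g trivial
  have hYN : Y ≤ N := by
    intro g hg
    change (φ g) ^ s = 1
    rw [(hφY g).mp hg, one_pow]
  have hNp : IsPGroup p ((V ≃ₗ[K] V) ⧸ N) := by
    intro x
    obtain ⟨g, rfl⟩ := QuotientGroup.mk_surjective x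
    refine ⟨(Nat.card K - 1).factorization p, ?_⟩
    rw [← QuotientGroup.mk_pow, QuotientGroup.eq_one_iff]
    change (φ (g ^ _)) ^ s = 1
    rw [map_pow, ← pow_mul, hs, Nat.ordProj_mul_ordCompl_eq_self, ← Nat.card_units]
    exact pow_card_eq_one'
  have hNc : IsCyclic ((V ≃ₗ[K] V) ⧸ N) := by
    have e : ((V ≃ₗ[K] V) ⧸ ψ.ker) ≃* ψ.range := QuotientGroup.quotientKerEquivRange ψ
    have h1 : IsCyclic ψ.range := inferInstance
    exact isCyclic_of_injective e.toMonoidHom e.injective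
  obtain ⟨χ, hχ⟩ := exists_chi (k := k) (p := p) (φ.comp N.subtype)
    (Nat.not_dvd_ordCompl hp hq) (fun g => g.2)
  refine one_mono (one_desc hYN χ (fun y => ?_) hQ (C := glC p (n ^ 2)) ?_) ?_
  · rw [← MonoidHom.mem_ker, hχ, MonoidHom.mem_ker, hφY]
    rfl
  swap
  · exact (Nat.mul_le_mul_right _ (Nat.factorial_le hQn)).trans (le_max_left _ _)
  refine oneBd_pidx_of ?_ hNp (primStmt_cyc _ hNc hNp) (hQ.map _) ?_
  · intro x y
    obtain ⟨a, rfl⟩ := QuotientGroup.mk_surjective x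
    obtain ⟨b, rfl⟩ := QuotientGroup.mk_surjective y
    rw [← QuotientGroup.mk_mul, ← QuotientGroup.mk_mul, QuotientGroup.eq]
    refine hYN (hY _ ?_)
    rw [map_mul, map_inv, map_mul, map_mul, mul_comm (LinearEquiv.det b), inv_mul_cancel]
  rintro S B z hS ⟨g, hg⟩ hB hz hBz hbr
  have hmax : MaxIn p S := maxIn_of_block hS hz hBz hbr
  have hmapj : (Q.map (Subgroup.inclusion hYN)).map N.subtype = Q.map Y.subtype := by
    rw [Subgroup.map_map]
    rfl
  rw [hmapj] at hg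
  have hcg : ∀ x ∈ S ⊓ N, ∀ y ∈ S ⊓ N, x * y = y * x := by
    intro x hx y hy
    rw [hg, mem_conjS] at hx hy
    obtain ⟨x', hx', hx1⟩ := hx
    obtain ⟨y', hy', hy1⟩ := hy
    have h1 : g⁻¹ * x * g * (g⁻¹ * y * g) = g⁻¹ * y * g * (g⁻¹ * x * g) := by
      rw [← hx1, ← hy1, ← map_mul, ← map_mul, hab _ hx' _ hy']
    have h2 : g⁻¹ * (x * y) * g = g⁻¹ * (y * x) * g := by
      calc g⁻¹ * (x * y) * g = g⁻¹ * x * g * (g⁻¹ * y * g) := by group
        _ = g⁻¹ * y * g * (g⁻¹ * x * g) := h1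
        _ = g⁻¹ * (y * x) * g := by group
    exact mul_left_cancel (mul_right_cancel h2)
  have hcard : Nat.card (S ⊓ N : Subgroup (V ≃ₗ[K] V)) = Nat.card Q := by
    rw [hg, H19.Pidx.card_conjS]
    exact Subgroup.card_map_of_injective Subtype.coe_injective
  have hdet : ∀ x : V ≃ₗ[K] V, LinearMap.det (x : V →ₗ[K] V) = 1 → x ∈ N := by
    intro x hx
    refine hYN (hY _ (Units.ext ?_))
    rw [LinearEquiv.coe_det, hx, Units.val_one]
  have hSab : ∀ x ∈ S, ∀ y ∈ S, x * y = y * x := by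
    refine H19.OutN.rowU hpK S hS hmax fun x hx y hy hx1 hy1 => ?_
    have h1 := hcg x ⟨hx, hdet x hx1⟩ y ⟨hy, hdet y hy1⟩
    obtain ⟨r, hr⟩ : ∃ r, max 1 (p - 2) = r + 1 := ⟨max 1 (p - 2) - 1, by omega⟩
    rw [hr, Function.iterate_succ_apply]
    have h2 : x * y * x⁻¹ * y⁻¹ = 1 := by rw [h1]; group
    change (fun t => x * t * x⁻¹ * t⁻¹)^[r] (x * y * x⁻¹ * y⁻¹) = 1
    rw [h2]
    exact Function.iterate_fixed (by simp) r
  have hScard : Nat.card S ≤ n ^ 2 := by
    rcases H354.NumS.card_le_sq_or S hS hpK hSab hmax with h | h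
    · exfalso
      apply hcyc
      have h1 : IsCyclic (S ⊓ N : Subgroup (V ≃ₗ[K] V)) :=
        isCyclic_of_injective (Subgroup.inclusion inf_le_left) (Subgroup.inclusion_injective _)
      rw [hg] at h1
      let f : Q →* conjS g (Q.map Y.subtype) :=
        { toFun := fun x => ⟨g * ((x : Y) : V ≃ₗ[K] V) * g⁻¹, mem_conjS.mpr (by
            have h2 : g⁻¹ * (g * ((x : Y) : V ≃ₗ[K] V) * g⁻¹) * g = ((x : Y) : V ≃ₗ[K] V) := by
              group
            rw [h2]
            exact ⟨x, x.2, rfl⟩)⟩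
          map_one' := Subtype.ext (by
            change g * 1 * g⁻¹ = 1
            group)
          map_mul' := fun x y => Subtype.ext (by
            change g * (((x : Y) : V ≃ₗ[K] V) * ((y : Y) : V ≃ₗ[K] V)) * g⁻¹ =
              g * ((x : Y) : V ≃ₗ[K] V) * g⁻¹ * (g * ((y : Y) : V ≃ₗ[K] V) * g⁻¹)
            group) }
      refine isCyclic_of_injective f fun x y hxy => ?_
      have h3 : g * ((x : Y) : V ≃ₗ[K] V) * g⁻¹ = g * ((y : Y) : V ≃ₗ[K] V) * g⁻¹ :=
        congrArg Subtype.val hxy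
      exact Subtype.ext (Subtype.ext (mul_left_cancel (mul_right_cancel h3)))
    · refine h.trans (Nat.pow_le_pow_left (le_trans ?_ hQn) 2)
      rw [← hcard]
      refine Nat.card_le_card_of_injective (Subgroup.inclusion (inf_le_inf_left S ?_))
        (Subgroup.inclusion_injective _)
      exact fun x hx => hYN (hY x hx)
  exact oneBd_glb hpK hS hScard hSab

/-- the bound for the isometry groups -/
noncomputable def isoC (p n : ℕ) : ℕ := n.factorial * (n.factorial * H392.indC stB p n)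

/-- the full isometry group -/
theorem one_full (Φ : HForm K V) (hΦ : H392.FormOk p Φ) [Finite (V ≃ₗ[K] V)] {n : ℕ}
    {Q : Subgroup (IsoG Φ)} (hQ : IsPGroup p Q) (hQn : Nat.card Q ≤ n)
    (hab : ∀ x ∈ Q, ∀ y ∈ Q, x * y = y * x) : OneBd k Q (H392.indC stB p n) := by
  have hfd : FiniteDimensional K V := Module.Finite.of_finite
  set Q1 : Subgroup (V ≃ₗ[K] V) := Q.map (IsoG Φ).subtype with hQ1
  have hc : Nat.card Q1 = Nat.card Q := Subgroup.card_map_of_injective Subtype.coe_injective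
  have hab1 : ∀ x ∈ Q1, ∀ y ∈ Q1, x * y = y * x := by
    rintro _ ⟨x, hx, rfl⟩ _ ⟨y, hy, rfl⟩
    rw [← map_mul, ← map_mul, hab x hx y hy]
  have hle : Q1 ≤ IsoG Φ := Subgroup.map_subtype_le _
  obtain ⟨r, hr, ⟨D⟩⟩ := H396.pdEx p K V Φ Q1 hΦ hle (hQ.map _) hab1
  have h4 := H392.oneBd_pd H574.pdStep (stepStmt_of_tow H6.towStmt) p n k K r V Φ Q1 hΦ hle
    (hQ.map _) (hc.le.trans hQn) hab1 D
  have h5 : Q1.subgroupOf (IsoG Φ) = Q :=
    Subgroup.comap_map_eq_self_of_injective Subtype.coe_injective _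
  rw [h5] at h4
  refine one_mono h4 ?_
  unfold H392.indC
  exact Finset.single_le_sum (f := fun r => H392.indB stB p n r) (fun _ _ => Nat.zero_le _)
    (Finset.mem_range.mpr (Nat.lt_succ_of_le (hr.trans (hc.le.trans hQn))))

/-- **Groups of isometries.** -/
theorem one_iso (Φ : HForm K V) (hΦ : H392.FormOk p Φ) {Y : Subgroup (V ≃ₗ[K] V)}
    (hY : Isometries Φ.B Y) [Finite Y] {n : ℕ} {Q : Subgroup Y} (hQ : IsPGroup p Q)
    (hQn : Nat.card Q ≤ n) (hab : ∀ x ∈ Q, ∀ y ∈ Q, x * y = y * x) : OneBd k Q (isoC p n) := by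
  classical
  have hp : p.Prime := Fact.out
  have hfin : Finite (V ≃ₗ[K] V) := fin_gl
  have hfd : FiniteDimensional K V := Module.Finite.of_finite
  obtain ⟨hok, hpK, hlin⟩ := hΦ
  have hp2 : p ≠ 2 := by
    rintro rfl
    exact (Nat.not_even_iff_odd.mpr (R2.H954.Hc.odd_of_lin Nat.prime_two hpK Φ.θ hlin)) even_two
  let W : Subgroup (V ≃ₗ[K] V) := IsoG Φ
  let S : Subgroup (V ≃ₗ[K] V) := W ⊓ (LinearEquiv.det : (V ≃ₗ[K] V) →* Kˣ).ker
  have hYW : Y ≤ W := hY.1
  -- the group `Y S`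
  let U : Subgroup (V ≃ₗ[K] V) :=
    { carrier := {g | g ∈ W ∧ ∃ y ∈ Y, LinearEquiv.det g = LinearEquiv.det y}
      one_mem' := ⟨W.one_mem, 1, Y.one_mem, rfl⟩
      mul_mem' := by
        rintro a b ⟨ha, x, hx, hax⟩ ⟨hb, y, hy, hby⟩
        exact ⟨W.mul_mem ha hb, x * y, Y.mul_mem hx hy, by rw [map_mul, map_mul, hax, hby]⟩
      inv_mem' := by
        rintro a ⟨ha, x, hx, hax⟩
        exact ⟨W.inv_mem ha, x⁻¹, Y.inv_mem hx, by rw [map_inv, map_inv, hax]⟩ }
  have hYU : Y ≤ U := fun y hy => ⟨hYW hy, y, hy, rfl⟩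
  have hUW : U ≤ W := fun g hg => hg.1
  have h2 : Y.relIndex U ∣ 2 := by
    refine R2.H799.CC.relIndex_of_two ?_
    rintro g ⟨hg, x, hx, hgx⟩ g' ⟨hg', x', hx', hgx'⟩ hgY hg'Y
    have e1 : LinearEquiv.det (x⁻¹ * g) = 1 := by rw [map_mul, map_inv, hgx, inv_mul_cancel]
    have e2 : LinearEquiv.det (g' * x'⁻¹) = 1 := by rw [map_mul, map_inv, hgx', mul_inv_cancel]
    have h3 := hY.2 (x⁻¹ * g) (g' * x'⁻¹) (W.mul_mem (W.inv_mem (hYW hx)) hg)
      (W.mul_mem hg' (W.inv_mem (hYW hx'))) e1 e2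
      (fun h => hgY (by simpa using Y.mul_mem hx h))
      (fun h => hg'Y (by simpa using Y.mul_mem h hx'))
    have h4 := Y.mul_mem (Y.mul_mem hx h3) hx'
    have e3 : x * (x⁻¹ * g * (g' * x'⁻¹)) * x' = g * g' := by group
    rwa [e3] at h4
  obtain ⟨χ, hχ⟩ := R2.H259.Iso.exists_chi_two (k := k) (p := p) (H := Y.subgroupOf U) h2 hp2
  obtain ⟨t, ht, hUt⟩ := exists_det_pow (W := W) (Y := U) hUW
    (fun g hg h1 => ⟨hg, 1, Y.one_mem, by rw [h1, map_one]⟩)
  obtain ⟨j, hj⟩ := R2.H259.Iso.exists_frobK Φ.θ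
  obtain ⟨χ', hχ'⟩ := exists_chi (k := k) (p := p)
    ((powMonoidHom t : Kˣ →* Kˣ).comp ((LinearEquiv.det : (V ≃ₗ[K] V) →* Kˣ).comp W.subtype))
    (hlin j hj) (fun g => by
      change ((LinearEquiv.det (g : V ≃ₗ[K] V)) ^ t) ^ _ = 1
      rw [← pow_mul, mul_comm, pow_mul]
      have h5 : (LinearEquiv.det (g : V ≃ₗ[K] V)) ^ (ringChar K ^ j + 1) = 1 := by
        apply Units.ext
        have h1 := H392.det_norm Φ (g := (g : V ≃ₗ[K] V)) g.2
        rw [hj] at h1
        rw [Units.val_pow_eq_pow_val, Units.val_one, LinearEquiv.coe_det, pow_succ, mul_comm]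
        exact h1
      rw [h5, one_pow])
  set Q1 := Q.map (Subgroup.inclusion hYU) with hQ1
  have hc1 : Nat.card Q1 = Nat.card Q :=
    Subgroup.card_map_of_injective (Subgroup.inclusion_injective hYU)
  have hc2 : Nat.card (Q1.map (Subgroup.inclusion hUW)) = Nat.card Q1 :=
    Subgroup.card_map_of_injective (Subgroup.inclusion_injective hUW)
  have h6 : OneBd k (Q1.map (Subgroup.inclusion hUW)) (H392.indC stB p n) := by
    refine one_full Φ ⟨hok, hpK, hlin⟩ ((hQ.map _).map _) (by rw [hc2, hc1]; exact hQn) ?_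
    rintro _ ⟨_, ⟨x, hx, rfl⟩, rfl⟩ _ ⟨_, ⟨y, hy, rfl⟩, rfl⟩
    rw [← map_mul, ← map_mul, ← map_mul, ← map_mul, hab x hx y hy]
  have h7 := one_desc hUW χ' (fun y => by
    rw [← MonoidHom.mem_ker, hχ', MonoidHom.mem_ker, hUt _ y.2]
    rfl) (hQ.map _ : IsPGroup p Q1) h6
  rw [hc1] at h7
  have h8 := one_desc hYU χ (fun y => by
    rw [← MonoidHom.mem_ker, hχ, Subgroup.mem_subgroupOf]) hQ h7
  exact one_mono h8 (Nat.mul_le_mul (Nat.factorial_le hQn)
    (Nat.mul_le_mul_right _ (Nat.factorial_le hQn)))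

end Lin

section Ind

variable {k : Type u} [Field k] [IsAlgClosed k] {p : ℕ} [Fact p.Prime] [CharP k p]

/-- the bound for the basic pairs -/
noncomputable def basC (p n m : ℕ) : ℕ := max (max m (cycB p n)) (max (midC p n) (isoC p n)) + 1

theorem one_pow_of {G : Type} [Group G] [Finite G] {Q : Subgroup G} {C : ℕ} (hC : 1 ≤ C)
    (h : OneBd k Q C) : OneBd k Q (C ^ (Nat.card Q - 1)) := by
  by_cases hQ : Q = ⊥
  · subst hQ
    rw [Subgroup.card_bot, Nat.sub_self, pow_zero]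
    exact one_bot
  · refine one_mono h ?_
    have h1 : 1 < Nat.card Q := (Subgroup.one_lt_card_iff_ne_bot Q).mpr hQ
    exact le_self_pow₀ hC (by omega)

theorem fin_of_built {p m : ℕ} {X : Type} [Group X] {A : Subgroup X} (h : Built p m X A) :
    Finite X := by
  induction h with
  | small X A _ => infer_instance
  | cyclic X A _ => infer_instance
  | classical K E Y A _ _ =>
    have : Finite (E ≃ₗ[K] E) := fin_gl
    infer_instance
  | prod X Y A _ _ h1 h2 => infer_instance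
  | quot X Y π A hπ _ _ _ h1 => exact Finite.of_surjective π hπ

/-- **Small idempotents for the pairs of the class `Built`.** -/
theorem one_built {m n : ℕ} {X : Type} [Group X] {A : Subgroup X} (h : Built p m X A) :
    ∀ [Finite X] (Q : Subgroup X), Q ≤ A → IsPGroup p Q → Nat.card Q ≤ n →
      OneBd k Q (basC p n m ^ (Nat.card Q - 1)) := by
  have hp : p.Prime := Fact.out
  have hC : 1 ≤ basC p n m := Nat.le_add_left 1 _
  induction h with
  | small X A hX =>
    intro _ Q _ _ _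
    refine one_pow_of hC (one_mono (one_small Q) (hX.trans ?_))
    exact ((le_max_left _ _).trans (le_max_left _ _)).trans (Nat.le_succ _)
  | cyclic X A hA =>
    intro _ Q hQA hQ hQn
    have h1 : IsCyclic Q :=
      isCyclic_of_injective (Subgroup.inclusion hQA) (Subgroup.inclusion_injective hQA)
    refine one_pow_of hC (one_mono (oneBd_cyc hQ h1) ((cycB_mono hQn).trans ?_))
    exact ((le_max_right _ _).trans (le_max_left _ _)).trans (Nat.le_succ _)
  | classical K E Y A hY hA =>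
    intro _ Q hQA hQ hQn
    have hab : ∀ x ∈ Q, ∀ y ∈ Q, x * y = y * x := fun x hx y hy => hA x (hQA hx) y (hQA hy)
    obtain ⟨hpK, h1 | ⟨B, θ, ε, ⟨f1, f2, f3, f4, f5, f6⟩, h2, h3, h4⟩⟩ := hY
    · refine one_pow_of hC (one_mono (one_mid hpK h1 hQ hQn hab) ?_)
      exact ((le_max_left _ _).trans (le_max_right _ _)).trans (Nat.le_succ _)
    · let Φ : HForm K E :=
        { B := B, θ := θ, ε := ε, add_left := f1, smul_left := f2, θθ := f3, εε := f4,
          symm := f5, nondeg := f6 }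
      refine one_pow_of hC (one_mono (one_iso Φ ⟨h4, hpK, h3⟩ h2 hQ hQn hab) ?_)
      exact ((le_max_right _ _).trans (le_max_right _ _)).trans (Nat.le_succ _)
  | prod X Y A hX hY ih1 ih2 =>
    intro _ Q hQA hQ hQn
    have fX : Finite X := fin_of_built hX
    have fY : Finite Y := fin_of_built hY
    have c1 : Nat.card (Q.map (MonoidHom.fst X Y)) ≤ Nat.card Q := H392.card_map_le' _ Q
    have c2 : Nat.card (Q.map (MonoidHom.snd X Y)) ≤ Nat.card Q := H392.card_map_le' _ Q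
    have h1 := ih1 (Q.map (MonoidHom.fst X Y)) (Subgroup.map_mono hQA) (hQ.map _) (c1.trans hQn)
    have h2 := ih2 (Q.map (MonoidHom.snd X Y)) (Subgroup.map_mono hQA) (hQ.map _) (c2.trans hQn)
    intro e a he ha hea hbr
    obtain ⟨c, hc, hec⟩ := exists_coeff_of_br hbr
    have hP : IsPGroup p ((Q.map (MonoidHom.fst X Y)).prod (Q.map (MonoidHom.snd X Y))) := by
      rintro ⟨⟨x, y⟩, hx, hy⟩
      obtain ⟨i, hi⟩ := (hQ.map (MonoidHom.fst X Y)) ⟨x, hx⟩
      obtain ⟨j, hj⟩ := (hQ.map (MonoidHom.snd X Y)) ⟨y, hy⟩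
      have hi' : x ^ p ^ i = 1 := congrArg Subtype.val hi
      have hj' : y ^ p ^ j = 1 := congrArg Subtype.val hj
      refine ⟨i + j, Subtype.ext (Prod.ext ?_ ?_)⟩
      · change x ^ p ^ (i + j) = 1
        rw [pow_add, pow_mul, hi', one_pow]
      · change y ^ p ^ (i + j) = 1
        rw [add_comm, pow_add, pow_mul, hj', one_pow]
    have h3 := card_le_of_coeff (k := k) (p := p) (N := ⊤) (P := Q) le_top le_top hP ha hea
      (c := c) (by
        rintro ⟨_, _⟩ ⟨⟨x, hx, rfl⟩, ⟨y, hy, rfl⟩⟩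
        have e1 : x.1 * c.1 * x.1⁻¹ = c.1 := congrArg Prod.fst (hc x hx)
        have e2 : y.2 * c.2 * y.2⁻¹ = c.2 := congrArg Prod.snd (hc y hy)
        exact Prod.ext e1 e2) hec
    rw [Nat.card_congr (Subgroup.prodEquiv _ _).toEquiv, Nat.card_prod] at h3
    obtain ⟨i, g1, g2, g3, g4, g5⟩ := oneBd_prod hQ h1 h2 e a he ha hea hbr
    refine ⟨i, g1, g2, g3, g4, g5.trans ?_⟩
    rw [← pow_add]
    refine Nat.pow_le_pow_right hC ?_
    have p1 : 0 < Nat.card (Q.map (MonoidHom.fst X Y)) := Nat.card_pos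
    have p2 : 0 < Nat.card (Q.map (MonoidHom.snd X Y)) := Nat.card_pos
    obtain ⟨s, hs⟩ : ∃ s, Nat.card (Q.map (MonoidHom.fst X Y)) = s + 1 := ⟨_, (Nat.succ_pred_eq_of_pos p1).symm⟩
    obtain ⟨t, ht⟩ : ∃ t, Nat.card (Q.map (MonoidHom.snd X Y)) = t + 1 := ⟨_, (Nat.succ_pred_eq_of_pos p2).symm⟩
    rw [hs, ht] at h3 ⊢
    have h4 : (s + 1) * (t + 1) = s * t + s + t + 1 := by ring
    rw [h4] at h3
    omega
  | quot X Y π A hπ hc hk hX ih =>
    intro _ Q hQA hQ hQn
    have fX : Finite X := fin_of_built hX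
    refine R2.H799.BN.oneBd_central hπ hc hQ fun Q1 hQ1 hmap => ?_
    have hbot : Q1 ⊓ π.ker = ⊥ := by
      rw [inf_comm]
      exact inf_eq_bot_of_not_dvd hk hQ1
    have hcard : Nat.card Q1 = Nat.card Q := by
      rw [← hmap]
      refine Nat.card_congr (Equiv.ofBijective (π.subgroupMap Q1) ⟨?_, π.subgroupMap_surjective Q1⟩)
      rw [injective_iff_map_eq_one]
      intro x hx
      have h1 : (x : X) ∈ Q1 ⊓ π.ker := ⟨x.2, congrArg Subtype.val hx⟩
      rw [hbot, Subgroup.mem_bot] at h1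
      exact Subtype.ext h1
    rw [hbot, Subgroup.card_bot, one_mul, ← hcard]
    refine ih Q1 ?_ hQ1 (hcard.le.trans hQn)
    intro x hx
    obtain ⟨a, ha, hax⟩ : π x ∈ A.map π := hQA (by rw [← hmap]; exact ⟨x, hx, rfl⟩)
    have hz : a⁻¹ * x ∈ π.ker := by rw [MonoidHom.mem_ker, map_mul, map_inv, hax, inv_mul_cancel]
    have hcm : Commute a (a⁻¹ * x) := Subgroup.mem_center_iff.mp (hc hz) a
    have h1 : (a⁻¹ * x) ^ Nat.card π.ker = 1 :=
      congrArg Subtype.val (pow_card_eq_one' (x := (⟨a⁻¹ * x, hz⟩ : π.ker)))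
    have h2 : x ^ Nat.card π.ker ∈ A := by
      have h3 : x = a * (a⁻¹ * x) := (mul_inv_cancel_left a x).symm
      rw [h3, hcm.mul_pow, h1, mul_one]
      exact A.pow_mem ha _
    obtain ⟨j, hj⟩ := hQ1 ⟨x, hx⟩
    have hj' : x ^ p ^ j = 1 := congrArg Subtype.val hj
    have hco : (Nat.card π.ker).Coprime (orderOf x) :=
      Nat.Coprime.coprime_dvd_right (orderOf_dvd_of_pow_eq_one hj')
        (((Nat.Prime.coprime_iff_not_dvd hp).mpr hk).symm.pow_right j)
    obtain ⟨t, ht⟩ := exists_pow_eq_self_of_coprime hco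
    rw [← ht]
    exact A.pow_mem h2 t

end Ind

section Top

open Vale.Agent.P180.R2.H667 (Tw)
open Vale.Agent.P180.R2.H365 (SmallT)

theorem tw_of {p : ℕ} {G : Type} [Group G] [Finite G] {X : Subgroup G} (h : PSolvableOver p X) :
    X.Normal ∧ Tw p X 1 := by
  obtain ⟨l, N, h0, hl, hN, hs⟩ := h
  refine ⟨h0 ▸ hN 0, ?_⟩
  have key : ∀ j, j ≤ l → Tw p (N (l - j)) 1 := by
    intro j
    induction j with
    | zero =>
      intro _
      rw [Nat.sub_zero, hl]
      exact Tw.top le_rfl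
    | succ j ih =>
      intro hj
      have h1 := ih (by omega)
      have e : l - j = l - (j + 1) + 1 := by omega
      rw [e] at h1
      obtain ⟨h2, h3⟩ := hs (l - (j + 1)) (by omega)
      refine Tw.step (c := 1) h2 (hN _) ⟨le_rfl, ?_⟩ h1 le_rfl
      rcases h3 with ⟨i, hi⟩ | h3
      · left
        intro x hx
        refine ⟨i, ?_⟩
        have := hN (l - (j + 1))
        rw [← hi]
        exact Subgroup.pow_relIndex_mem _ hx
      · exact Or.inr (Or.inl h3)
  have h1 := key l le_rfl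
  rwa [Nat.sub_self, h0] at h1

variable {k : Type u} [Field k] [IsAlgClosed k] {p : ℕ} [Fact p.Prime] [CharP k p]

/-- from a small idempotent of the normal subgroup to the property `SmallT` -/
theorem smallT_of {G : Type} [Group G] [Finite G] {X P : Subgroup G} [X.Normal] {n C m : ℕ}
    (hTw : Tw p X m) (hPX : P ≤ X) (hP : IsPGroup p P) (hPn : Nat.card P ≤ n)
    {a b : MonoidAlgebra k G} (hb : IsBlockOf (⊤ : Subgroup G) b) (ha : a ∈ Fix (cj k G) P)
    (hba : b = tr (cj k G) P ⊤ a) (hbr : br P b ≠ 0) (h : OneBd k (P.subgroupOf X) C) :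
    SmallT p n C m k G b := by
  classical
  have hbF : ∀ S : Subgroup G, b ∈ Fix (cj k G) S := fun S => Fix_mono _ le_top hb.mem.2
  have hbc : ∀ z : MonoidAlgebra k G, z * b = b * z := fun z =>
    commute_of_mem (SubAlg_top z) hb.mem.2
  obtain ⟨e, he, heb⟩ := R2.H954.Hc.exists_br_block (k := k) (L := X) (Q := P) hbr
  have heP : e ∈ Fix (cj k G) P := Fix_mono _ hPX he.mem.2
  have heb' : br P (e * b) ≠ 0 := by rwa [br_mul hP heP (hbF P)]
  have he0 : br P e ≠ 0 := left_ne_zero_of_mul heb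
  have heb0 : e * b ≠ 0 := by
    intro h0
    apply heb'
    rw [h0]
    exact R2.H799.br_zero P
  obtain ⟨x, z, hz, hzF, hez⟩ := covering he hb.idem heb0 ha hba
  have hcard : Nat.card (X ⊓ conjS x P : Subgroup G) ≤ Nat.card P := by
    rw [← H19.Pidx.card_conjS x P]
    exact Nat.card_le_card_of_injective (Subgroup.inclusion inf_le_right)
      (Subgroup.inclusion_injective _)
  obtain ⟨z1, hz1, hz1F, hez1⟩ := tr_move (p := p) inf_le_left hPX hP hcard he.mem.2 hz hzF hez he0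
  obtain ⟨e', hee'⟩ := exists_incl X he.mem.1
  obtain ⟨z', hzz'⟩ := exists_incl X hz1
  set Q : Subgroup X := P.subgroupOf X with hQ
  have hmap : Q.map X.subtype = P := by
    rw [hQ, Subgroup.subgroupOf_map_subtype, inf_eq_left.mpr hPX]
  have hQp : IsPGroup p Q := hP.comap_of_injective X.subtype X.subtype_injective
  have hz'F : z' ∈ Fix (cj k X) Q := by
    rw [← incl_mem_Fix_iff, hmap, hzz']; exact hz1F
  have he' : IsBlockOf (⊤ : Subgroup X) e' := by
    unfold IsBlockOf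
    rw [ZAlg_top]
    exact (isBlockOf_incl_iff X e').mp (by rw [hee']; exact he)
  have he'z : e' = tr (cj k X) Q ⊤ z' := by
    apply incl_injective (k := k) X
    rw [incl_tr X Q hz'F, hmap, hee', hzz']
    exact hez1
  obtain ⟨c, hc, hec⟩ := exists_coeff_of_br he0
  have hcX : c ∈ X := he.mem.1 c hec
  have hbr' : br Q e' ≠ 0 := by
    refine br_ne_zero_of_coeff (c := ⟨c, hcX⟩) ?_ ?_
    · intro r hr
      apply Subtype.ext
      exact hc r hr
    · rw [← R2.H799.incl_coeff, hee']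
      exact hec
  obtain ⟨i, hiF, hii, hei, hbi, hdim⟩ := h e' z' he' hz'F he'z hbr'
  have hie : i * e' = i := by
    rw [commute_of_mem (SubAlg_top i) he'.mem.2, hei]
  obtain ⟨w, hw, -, hew⟩ := R2.H365.gen he' hQp hz'F he'z hiF hii (by rwa [hie])
  have hiP : incl k X i ∈ Fix (cj k G) P := by
    rw [← hmap, incl_mem_Fix_iff]; exact hiF
  have hwP : incl k X w ∈ Fix (cj k G) P := by
    rw [← hmap, incl_mem_Fix_iff]; exact hw
  have hew' : e = tr (cj k G) P X (incl k X i * incl k X w) := by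
    rw [← hee', hew, incl_tr X Q (Subalgebra.mul_mem _ hiF hw), hmap, map_mul]
  refine ⟨X, P, a, incl k X i, inferInstance, hTw, hP, hPn, ha, hba, incl_mem X i, hiP,
    by rw [← map_mul, hii], ?_, ?_⟩
  · intro h0
    apply heb'
    have h1 : incl k X i * incl k X w * b ∈ Fix (cj k G) P :=
      Subalgebra.mul_mem _ (Subalgebra.mul_mem _ hiP hwP) (hbF P)
    have h2 : br P (incl k X i * incl k X w * b) = 0 := by
      rw [mul_assoc, hbc (incl k X w), ← mul_assoc,
        br_mul hP (Subalgebra.mul_mem _ hiP (hbF P)) hwP, h0, zero_mul]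
    rw [hew', tr_mul (hbF X), br_tr_rel hP hPX h1, h2]
    have h3 := tr_smul (ρ := cj k G) (H := P) (K := X ⊓ Subgroup.normalizer (P : Set G)) (0 : k)
      (0 : MonoidAlgebra k G)
    rwa [zero_smul, zero_smul] at h3
  · have h1 := finrank_NN_hom (k := k) (φ := X.subtype) X.subtype_injective i i
    rw [Subgroup.range_subtype] at h1
    have h2 : Module.finrank k (NN (SubAlg k X) (incl k X i) (incl k X i)) =
      Module.finrank k (NN (⊤ : Subalgebra k (MonoidAlgebra k X)) i i) := h1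
    rw [h2]
    exact hdim

/-- the property `SmallT` for the class `OverBuilt` -/
theorem smallT_built {n m : ℕ} {G : Type} [Group G] [Finite G] {D : Subgroup G}
    (hD : OverBuilt p m G D) (hn : Nat.card D ≤ n) {a b : MonoidAlgebra k G} (hb : IsBlock b)
    (ha : a ∈ Fix (cj k G) D) (hba : b = tr (cj k G) D ⊤ a) :
    SmallT p n (basC p n m ^ n) 1 k G b := by
  obtain ⟨X, hDX, hX, hB⟩ := hD
  obtain ⟨hXn, hTw⟩ := tw_of hX
  obtain ⟨P₁, hP₁D, hP₁, a₁, ha₁, hba₁⟩ := exists_sylow_trace (p := p) ha hba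
  obtain ⟨P, hPP₁, a', ha', hba', c₀, hc₀, hbc₀⟩ :=
    H768.Gd.exists_min_defect (isBlock_iff.mp hb) ha₁ hba₁
  have hPD : P ≤ D := hPP₁.trans hP₁D
  have hP : IsPGroup p P := hP₁.to_le hPP₁
  have hPn : Nat.card P ≤ n :=
    (Nat.card_le_card_of_injective _ (Subgroup.inclusion_injective hPD)).trans hn
  have hQn : Nat.card (P.subgroupOf X) ≤ n := R2.H799.BN.card_subgroupOf_le hPn le_rfl
  refine smallT_of hTw (hPD.trans hDX) hP hPn (isBlock_iff.mp hb) ha' hba'
    (br_ne_zero_of_coeff hc₀ hbc₀) (one_mono (one_built hB _ (Subgroup.comap_mono hPD)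
      (hP.comap_of_injective X.subtype X.subtype_injective) hQn) ?_)
  exact Nat.pow_le_pow_right (Nat.le_add_left 1 _) ((Nat.sub_le _ _).trans hQn)

end Top

open IsLocalRing Vale.Agent.P180.I in
/-- **Part two.** -/
theorem donovan_built (p : ℕ) [Fact p.Prime] (n m : ℕ) : Donovan.{u} p n (OverBuilt p m) := by
  obtain ⟨r, H, iG, iF, h1, h2⟩ := R2.H365.uni_T.{u} p n (basC p n m ^ n) 1
  refine ⟨r, H, iG, iF, ?_, ?_⟩
  · intro k _ _ _
    obtain ⟨c, hc, h⟩ := h1 k
    refine ⟨c, hc, ?_⟩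
    intro G _ _ b hb D hD hn hC
    rw [MonoidAlgebra.mapRingHom_id, RingHom.id_apply, or_self] at hD
    have hb' : IsBlock b := isBlockR_iff.mp hb
    obtain ⟨a, ha, hba⟩ := exists_trace hb' (hb'.isSummand hD.prop)
    exact Or.inl (h G b hb (smallT_built hC hn hb' ha hba))
  · intro O _ _ _ _ _ _
    obtain ⟨c, hc, h⟩ := h2 O
    refine ⟨c, hc, ?_⟩
    intro G _ _ B hB D hD hn hC
    obtain ⟨hb', -⟩ := isBlock_rd hB
    obtain ⟨a, ha, hba⟩ : ∃ a ∈ Fix (cj (ResidueField O) G) D,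
        rd B = tr (cj (ResidueField O) G) D ⊤ a := by
      rcases hD with h | h
      · exact exists_trace_rd hB h.prop
      · exact exists_trace hb' (hb'.isSummand h.prop)
    exact Or.inl (h G B hB (smallT_built hC hn hb' ha hba))

end Vale.Agent.N180
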